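import Crest.Agent.X212.End14.Glu

/-!
# Row 212, GL-DG (helper64), part 1: rigidity from `C⁰` closeness
-/

set_option autoImplicit false
set_option linter.unusedSectionVars false
set_option maxHeartbeats 400000
noncomputable section
open scoped Manifold ContDiff Topology InnerProductSpace
open MeasureTheory Set Function Filter Real

namespace Crest.Agent.X212.Dg64
open An Sob92 Cyf70 Neck67 Cmp73 Pj41 Eqv71 Tmp64 Nd18 Bki64

variable {E3 : Type} [NormedAddCommGroup E3] [NormedSpace ℝ E3] [FiniteDimensional ℝ E3]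
  [MeasurableSpace E3] [BorelSpace E3]
  {H3 : Type} [TopologicalSpace H3] {I3 : ModelWithCorners ℝ E3 H3} [I3.Boundaryless]
  {Y : Type} [TopologicalSpace Y] [ChartedSpace H3 Y] [IsManifold I3 ∞ Y] [T2Space Y]
  [MeasurableSpace Y] [BorelSpace Y] [SecondCountableTopology Y] [CompactSpace Y]
  {κ : Type} [Fintype κ] {lam : Type} [Fintype lam] {D : YD I3 Y κ lam} {β β' : YC Y κ lam}
  {α : Type} {𝒰 : Ultrafilter α}

/-- limits of approximate solutions of an overdetermined linear system -/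
theorem ode_lim {F : Pre I3 Y κ} {V : Type} [NormedAddCommGroup V] [NormedSpace ℝ V]
    [FiniteDimensional ℝ V] {f : α → Y → V} {K : κ → Y → V →L[ℝ] V} (hK : ∀ a, Sm I3 (K a))
    (h0 : BB F 𝒰 (fun _ => univ) 0 f)
    (h1 : ∀ a, ZZ F 𝒰 (fun _ => univ) 0 fun n y => F.D a (f n) y - K a y (f n y)) :
    ∃ g, Sm I3 g ∧ (∀ a y, F.D a g y = K a y (g y)) ∧
      ∀ ε > 0, ∀ᶠ n in (𝒰 : Filter α), ∀ y, ‖f n y - g y‖ ≤ ε := by
  classical
  have := FiniteDimensional.proper_real V
  have bK : ∀ a, BB F (𝒰 : Filter α) (fun _ => univ) 0 fun _ => K a := fun a =>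
    BB.of_CB h0.op (Cb_of_compact (hK a))
  have b1 : BB F 𝒰 (fun _ => univ) 1 f := h0.succ fun a =>
    ((h1 a).bb.add ((bK a).app h0)).congr (.of_forall fun _ _ _ => (sub_add_cancel _ _).symm)
  obtain ⟨C, hC⟩ := h0
  have : ∀ y, ∃ c, Tendsto (fun n => f n y) 𝒰 (𝓝 c) := fun y =>
    let ⟨c, _, hc⟩ := (isCompact_closedBall (0 : V) C).ultrafilter_le_nhds (𝒰.map fun n => f n y)
      (le_principal_iff.2 (hC.mono fun n hn => mem_closedBall_zero_iff.2 (hn.2.le trivial)))
    ⟨c, hc⟩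
  choose g hg using this
  have jt := fun y => (b1.mb (mem_univ y)).tendsto (hg y)
  have cg : Continuous g := continuous_iff_continuousAt.2 fun y => Metric.tendsto_nhds.2 fun ε hε => by
    obtain ⟨p, hp, q, hq, H⟩ := eventually_prod_iff.1 (Metric.tendsto_nhds.1 (jt y) _ (half_pos hε))
    refine hq.mono fun z hz => lt_of_le_of_lt ?_ (half_lt_self hε)
    exact le_of_tendsto ((hg z).dist tendsto_const_nhds) (hp.mono fun n hn => (H hn hz).le)
  have un : ∀ ε > 0, ∀ᶠ n in (𝒰 : Filter α), ∀ y, ‖f n y - g y‖ ≤ ε := fun ε hε =>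
    (ev_compact isCompact_univ (p := fun n y => ‖f n y - g y‖ ≤ ε) fun y _ => by
      have := ((jt y).sub (cg.continuousAt.tendsto.comp (tendsto_snd (f := (𝒰 : Filter α))))).norm
      rw [sub_self, norm_zero] at this
      exact this.eventually (ge_mem_nhds hε)).mono fun _ h y => h y trivial
  let u : α → Y → V := fun n => if Sm I3 (f n) then f n else 0
  have eu : ∀ᶠ n in (𝒰 : Filter α), u n = f n := hC.mono fun n hn => if_pos fun y => hn.2.sm trivial
  have hs : ∀ x (v : TangentSpace I3 x), ∃ c : κ → ℝ, v = ∑ a, c a • F.e a x := fun x v => by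
    have : v ∈ Submodule.span ℝ (range fun a => F.e a x) := by rw [F.span x]; trivial
    obtain ⟨c, hc⟩ := (Submodule.mem_span_range_iff_exists_fun ℝ).1 this
    exact ⟨c, hc.symm⟩
  have md := mdiff_of_limit F.sm hs (l := (𝒰 : Filter α)) (u := u) (f := g)
    (g := fun a y => K a y (g y)) (fun n => by
      by_cases h : Sm I3 (f n)
      · rw [show u n = f n from if_pos h]; exact h.mdifferentiable (by simp)
      · rw [show u n = 0 from if_neg h]; exact mdifferentiable_const)
    (fun y => (hg y).congr' (eu.mono fun n hn => (congrFun hn y).symm)) fun a => by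
      obtain ⟨B, B0, hB⟩ := (bK a).pos
      refine Metric.tendstoUniformly_iff.2 fun ε hε => ?_
      filter_upwards [eu, hB, (h1 a).le (show 0 < ε / 3 by positivity),
        un (ε / 3 / B) (by positivity)] with n e1 e2 e3 e4 y
      have e5 : ‖K a y (f n y - g y)‖ ≤ ε / 3 := (ContinuousLinearMap.le_of_opNorm_le_of_le _
        (e2.2.le trivial) (e4 y)).trans_eq (by field_simp)
      rw [dist_comm, dist_eq_norm, e1, ← Pre.D_def, ← sub_add_sub_cancel _ (K a y (f n y)),
        ← map_sub]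
      linarith [norm_add_le_of_le (e3 y trivial) e5]
  refine ⟨g, contMDiff_infty.2 fun n => contMDiff_of_class F.sm hs
    (fun _ v => ∃ L : Y → V →L[ℝ] V, Sm I3 L ∧ v = fun y => L y (g y)) ?_ ?_ n g
    ⟨fun _ => .id ℝ V, contMDiff_const, rfl⟩, fun a y => (md y).2 a, un⟩
  · rintro _ ⟨L, h, rfl⟩
    exact h.continuous.clm_apply cg
  · rintro _ _ ⟨L, h, rfl⟩
    have hL := h.mdifferentiable (by simp)
    refine ⟨fun y => (hL y).clm_apply (md y).1, fun a => ⟨fun y => F.D a L y + L y ∘L K a y,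
      (F.sm_D h a).add (h.clm_comp (hK a)), funext fun y => ?_⟩⟩
    rw [dv_app (hL y) (md y).1, (md y).2 a]
    rfl

section lr
variable {V W : Type} [NormedAddCommGroup V] [NormedSpace ℝ V] [NormedAddCommGroup W]
  [NormedSpace ℝ W]

/-- `u ↦ u A - B u` -/
def lr (A : CL V V) (B : CL W W) : CL (CL V W) (CL V W) :=
  (ContinuousLinearMap.compL ℝ V V W).flip A - ContinuousLinearMap.compL ℝ V W W B

theorem lr_app (A : CL V V) (B : CL W W) (u : CL V W) : lr A B u = u ∘L A - B ∘L u := rfl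

theorem sm_lr [FiniteDimensional ℝ V] [FiniteDimensional ℝ W] {A : Y → CL V V} {B : Y → CL W W} (hA : Sm I3 A) (hB : Sm I3 B) :
    Sm I3 fun y => lr (A y) (B y) := by
  have h : ContDiff ℝ ∞ fun z : CL V V × CL W W => lr z.1 z.2 := contDiff_clm_apply_iff.2 fun u =>
    (contDiff_const.clm_comp contDiff_fst).sub (contDiff_snd.clm_comp contDiff_const)
  exact h.contMDiff.comp (hA.prodMk_space hB)

end lr

/-- **rigidity on the central slices** -/
theorem rig1 (hβ : D.Adm β) (hβ' : D.Adm β') {t : α → Y × ℝ → CL (cy β).m.V (cy β').m.V}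
    {ξ : α → Circle} {s : α → ℝ} {L : ℝ} (hL : 0 < L) (H : CZ D.Z 𝒰 (fun n => win Y (s n) L) 0 (fun _ => cy β)
      (cy β') t fun n _ => ξ n) : ∃ (g : Y → CL (cy β).m.V (cy β').m.V) (ξ0 : Circle), Stb D β β' g ξ0 ∧ Tendsto ξ 𝒰 (𝓝 ξ0) ∧
      ∀ ε > 0, ∀ᶠ n in (𝒰 : Filter α), ∀ y, ‖t n (y, s n) - g y‖ ≤ ε := by
  have m : ∀ n y, (y, s n) ∈ win Y (s n) L := fun n y => ⟨trivial, by linarith, by linarith⟩
  have f1 := fx_cy (k := 0) hβ H.op
  have sW : ∀ a, Sm I3 fun y => (cy β).W a (y, 0) := fun a _ => sm_slice (hβ.adm.conn.cc.sm a _)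
  have sW' : ∀ a, Sm I3 fun y => (cy β').W a (y, 0) := fun a _ => sm_slice (hβ'.adm.conn.cc.sm a _)
  have e : ∀ a, ∀ᶠ n in (𝒰 : Filter α), ∀ y, D.F.D a (fun y => t n (y, s n)) y -
      lr ((cy β).W (some a) (y, 0)) ((cy β').W (some a) (y, 0)) (t n (y, s n)) =
        cov D.Z (cy β) (cy β') (t n) (some a) (y, s n) := fun a => H.iso.mono fun n h y => by
    have := D_some_at D.F.toPre (h.su _ (m n y)).md a
    exact (congrArg (· - _) this.symm).trans (sub_sub_eq_add_sub _ _ _)
  obtain ⟨g, sg, dg, hg⟩ := ode_lim (F := D.F.toPre) (𝒰 := 𝒰) (f := fun n y => t n (y, s n))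
    (fun a => sm_lr (sW (some a)) (sW' (some a)))
    (BB.zero_of (.of_forall fun _ => isOpen_univ) (H.iso.mono fun n h y _ =>
      ⟨sm_slice (h.su _ (m n y)), norm_iso (h.iso _ (m n y))⟩)) fun a ε hε => by
      filter_upwards [H.cov (G := D.G) f1 le_rfl (bb_iso H.op H.iso) (some a) ε hε, e a]
        with n h1 e
      exact ⟨isOpen_univ, fun y _ => ⟨(sm_slice (h1.2.sm (m n y))).congr_of_eventuallyEq
        (.of_forall e), (congrArg _ (e y)).trans_le (h1.2.le (m n y))⟩⟩
  obtain ⟨ξ0, -, hξ⟩ := isCompact_univ.ultrafilter_le_nhds (𝒰.map ξ) (by simp)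
  have pt : ∀ y, Tendsto (fun n => t n (y, s n)) 𝒰 (𝓝 (g y)) := fun y =>
    tendsto_iff_norm_sub_tendsto_zero.2 (NormedAddGroup.tendsto_nhds_zero.2 fun ε hε =>
      (hg _ (half_pos hε)).mono fun n h => by
        rw [norm_norm]; exact (h y).trans_lt (half_lt_self hε))
  have cl : ∀ {N : Type} [NormedAddCommGroup N] [NormedSpace ℝ N] 
      (φ ψ : CL (cy β).m.V (cy β').m.V → N) (y),
      Continuous φ → Continuous ψ → (∀ᶠ n in (𝒰 : Filter α), φ (t n (y, s n)) = ψ (t n (y, s n))) →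
      φ (g y) = ψ (g y) := fun _ _ y a b h =>
    tendsto_nhds_unique_of_eventuallyEq ((a.tendsto _).comp (pt y)) ((b.tendsto _).comp (pt y)) h
  have ca : Continuous fun u : CL (cy β).m.V (cy β').m.V => ad u := adL.continuous
  have k := H.iso
  refine ⟨g, ξ0, ⟨⟨fun x _ => sm_fst sg x, fun x _ => ⟨?_, ?_, ?_⟩, fun x _ => ?_, fun x _ b => ?_,
    fun x _ w => ?_⟩, fun a x => ?_, fun y => ?_⟩, hξ, hg⟩
  · exact cl (fun u => ad u ∘L u) _ x.1 (ca.clm_comp continuous_id) continuous_const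
      (k.mono fun n h => (h.iso _ (m n _)).src)
  · exact cl (fun u => u ∘L ad u) _ x.1 (continuous_id.clm_comp ca) continuous_const
      (k.mono fun n h => (h.iso _ (m n _)).tgt)
  · exact cl (· ∘L (cy β).m.p x) id x.1 (by fun_prop) continuous_id
      (k.mono fun n h => (h.iso _ (m n _)).idem)
  · exact cl ((cy β').m.J ∘L ·) (· ∘L (cy β).m.J) x.1 (by fun_prop) (by fun_prop)
      (k.mono fun n h => h.J _ (m n _))
  · exact cl ((cy β').m.ρ b x ∘L ·) (· ∘L (cy β).m.ρ b x) x.1 (by fun_prop) (by fun_prop)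
      (k.mono fun n h => h.ρ _ (m n _) b)
  · exact cl ((cy β').m.j x w ∘L ·) (· ∘L (cy β).m.j x w) x.1 (by fun_prop) (by fun_prop)
      (k.mono fun n h => h.j _ (m n _) w)
  · cases a with
    | none =>
      have e1 := congrFun (D_none_fst D.F.toPre sg) x
      have e2 : (cy β').W none x = 0 := hβ'.tmp _
      have e3 : (cy β).W none x = 0 := hβ.tmp _
      refine (congrArg₂ (· - ·) (congrArg₂ (· + ·) e1 (congrArg (· ∘L g x.1) e2))
        (congrArg (g x.1 ∘L ·) e3)).trans ?_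
      simp
    | some a =>
      have e1 := (congrFun (D_some_fst D.F.toPre sg a) x).trans (dg a x.1)
      exact (congrArg (fun T => T + (cy β').W (some a) x ∘L g x.1 - g x.1 ∘L (cy β).W (some a) x)
        e1).trans ((congrArg (· - _) (sub_add_cancel _ _)).trans (sub_self _))
  · have h1 := (((csB β'.m.J).continuous.tendsto _).comp ((continuous_subtype_val.tendsto _).comp
      hξ)).prodMk_nhds (((ContinuousLinearMap.apply ℝ _ (β.Φ y)).continuous.tendsto _).comp (pt y))
    refine tendsto_nhds_unique ((isBoundedBilinearMap_apply.continuous.tendsto _).comp h1)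
      (tendsto_iff_norm_sub_tendsto_zero.2 (NormedAddGroup.tendsto_nhds_zero.2 fun ε hε =>
        (H.P.le (half_pos hε)).mono fun n h => ?_))
    rw [norm_norm]
    exact (h _ (m n y)).trans_lt (half_lt_self hε)

end Crest.Agent.X212.Dg64
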