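import Crest.Agent.X212.Dg64.Defs

/-!
# Row 212, GL-DG (helper64): the sub-leaves

`DG` from `Fin` (small points from global gauges), `Asm` (global gauges from patched neck gauges),
`Pat` (patching), `Trf`, `Ucp` (transfer along isomorphisms), `Wnd`, `Frm` (frames), `Vol`.
-/

set_option autoImplicit false
set_option linter.unusedSectionVars false
noncomputable section
open scoped Manifold ContDiff Topology NNReal ENNReal
open Set Function Filter MeasureTheory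

namespace Crest.Agent.X212.Gj67.Dat
open An An.Job M Nd18
open Bki64 (Cl Stb win)

variable {Wi : Type} {X : Mf 4} {A κ lam : Type} [Fintype A] [Fintype κ] [Fintype lam]
  [DecidableEq lam] {M : Mark X A κ} {W : World M} {L : ML M lam} {Λ : Lns W L}
  {A' h : Type} [Fintype A'] [DecidableEq A'] [Fintype h] {r n : ℕ}
  {J : Job Wi Λ A' h r n} {σ : Cel A'} {a : A'}
  {U Up R : Type} [NormedAddCommGroup U] [NormedSpace ℝ U] [NormedAddCommGroup Up]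
  [NormedSpace ℝ Up] [NormedAddCommGroup R] [NormedSpace ℝ R] (d : Dat J σ a U Up R)
  (q₀ : Wi →₀ ℝ) (δ : ℝ) (k : ℕ)

/-- LEAF VOL: uniform weighted volume -/
def Vol : Prop := ∀ c > 0, ∃ V : ℝ≥0, ∀ᶠ τ in d.lg,
  ∫⁻ x, ENNReal.ofReal (Real.exp (-c * d.hX τ x)) ∂(d.FX τ).F0.μ ≤ V

/-- LEAF FRM: the family of backgrounds tends to the reference, and is literal on the neck -/
def Frm : Prop := ∀ j : ℕ, ∀ η > 0, ∀ᶠ p : d.Ta × Tc σ a in d.lg ×ˢ 𝓝 0,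
  (∀ i b, (d.FX p.1).F0.CB j (fun x => (d.FX p.1).S p.2 x i b - (J.B M.c0).P i b x) η) ∧
  (∀ i b c, (d.FX p.1).F0.CB j (fun x => (d.FX p.1).cf p.2 x i b c) η) ∧
  (∀ i, (d.FX p.1).F0.CB j (fun x => (d.FX p.1).la p.2 x i) η) ∧
  ∀ x, 0 < d.hX p.1 x → ∀ i, (∀ b, (d.FX p.1).S p.2 x i b = (J.B M.c0).P i b x) ∧
    (∀ b c, (d.FX p.1).cf p.2 x i b c = 0) ∧ (d.FX p.1).la p.2 x i = 0

/-- the local limit of a degenerating family -/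
abbrev UL {α : Type} (l : Filter α) (y : α → J.Obc M.c0)
    (c₀ : Cfg (W.Z (J.cf a)).M (Option κ) (lam ⊕ lam) r)
    (g : ∀ i, (W.Z (J.cf a)).M → CL (y i).x.m.V c₀.m.V) (θ : α → Circle) : Prop :=
  ULim (W.Z (J.cf a)).I (J.B (J.cf a)) l univ (fun i => J.fu (J.cf a) (y i).s)
    (fun i => pb (up (J.cf a)) (y i).x) c₀ g θ

/-- LEAF UCP: local limits and exact isomorphisms -/
def Ucp : Prop := ∀ (α : Type) (l : Filter α) (y : α → J.Obc M.c0)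
  (c₀ c₁ : Cfg (W.Z (J.cf a)).M (Option κ) (lam ⊕ lam) r) u ζ
  (g : (W.Z (J.cf a)).M → CL c₀.m.V c₁.m.V) (η : Circle),
  c₀.Adm (J.B _) (J.G _ d.y.s) → c₁.Adm (J.B _) (J.G _ d.y.s) →
  (∀ᶠ i in l, (y i).Ok ∧ (y i).s ∈ cl σ) → Tendsto (fun i => (y i).s) l (𝓝 d.y.s) →
  UL l y c₀ u ζ → CEq (J.G (J.cf a) d.y.s).F c₀ c₁ univ id
    (fun x b a' => (J.B (J.cf a)).P b a' x) (J.B (J.cf a)).l g η →
  UL l y c₁ (fun i x => g x ∘L u i x) fun i => η * ζ i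

/-- LEAF TRF: transfer of a degeneration to the normal form -/
def Trf : Prop := ∀ (α : Type) (l : Filter α) (q : α → Wi →₀ ℝ) (y : α → J.Obc M.c0)
  (y₀ : J.Obc (J.cf a)), (∀ᶠ i in l, Sol σ (q i) (y i)) → Sol σ q₀ y₀ → y₀.Tight →
  Job.Iso d.y y₀ → Dg l y y₀ → Dg l y d.y

/-- the length of the neck of `y` -/
abbrev ln (y : J.Obc M.c0) : ℝ := nl ((J.Θ y.s).2 d.x)

/-- LEAF WND: the local gauges on the windows of the ends -/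
def Wnd : Prop := ∀ (α : Type) (l : Filter α) (y : α → J.Obc M.c0) g θ,
  (∀ᶠ i in l, (y i).Ok ∧ (y i).s ∈ cl σ) → Tendsto (fun i => (y i).s) l (𝓝 d.y.s) →
  UL l y d.y.x g θ → ∀ b (s : ℝ), 1 < -pm b * s → ∀ j : ℕ, ∀ ε > 0, ∀ᶠ i in l,
    ∀ ha : Act J.m M.c0 d.x none (J.Θ (y i).s),
      Cl d.D.Z (sh (if b then d.ln (y i) else 0) ((J.K _ d.x none _ ha).pb (y i).x))
        ((d.KS b).pb d.y.x) (fun z => g i ((d.KS b).ψ z)) (fun _ => θ i) (win d.Y s 1) j ε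

/-- LEAF PAT: a gauge of the neck which agrees with the local gauge at depth `T` -/
def Pat : Prop := ∃ e > δ, ∀ (α : Type) (𝒰 : Ultrafilter α) (q : α → Wi →₀ ℝ)
  (y : α → J.Obc M.c0), St.Cv (𝒰 : Filter α) q q₀ → (∀ᶠ i in (𝒰 : Filter α), Sol σ (q i) (y i)) →
  Dg 𝒰 y d.y → ∀ j : ℕ, ∃ (C T₁ : ℝ) (g : ∀ i, (W.Z (J.cf a)).M → CL (y i).x.m.V d.y.x.m.V)
    (θ : α → Circle), UL 𝒰 y d.y.x g θ ∧
    (∀ k, CLim (N := fun i => (y i).x.m.N) 𝒰 d.Jc (fun i => g i (J.cut _ k).x0)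
      (fun i => (y i).ψ k) (d.y.ψ k)) ∧
    ∀ T ≥ T₁, ∀ ε > 0, ∀ᶠ i in (𝒰 : Filter α),
      ∃ (ha : Act J.m M.c0 d.x none (J.Θ (y i).s)) (u : U)
        (v : d.Y × ℝ → CL (y i).x.m.V (d.β u).m.V), ‖u‖ ≤ ε ∧
        (∀ b z s, |s - T| < 1 →
          v (z, if b then d.ln (y i) - s else s) = g i ((d.KS b).ψ (z, -pm b * s))) ∧
        ∀ s ∈ Icc T (d.ln (y i) - T),
          Cl d.D.Z ((J.K _ d.x none _ ha).pb (y i).x) (cy (d.β u)) v (fun _ => θ i) (win d.Y s 1) j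
            (C * Real.exp (-e * min s (d.ln (y i) - s)))

/-- the pre-glued configuration with the moving limit `u` -/
def rf (τ : d.Ta) (u : U) : Cfg (W.Z M.c0).M (Option κ) (lam ⊕ lam) r :=
  ⟨(d.Xs τ).md, fun i x => (d.Xs τ).A0 i x + opL ((d.Xs τ).b x u i), (d.Xs τ).Φ0, d.y.x.z⟩

/-- weighted pointwise bounds -/
def WB (τ : d.Ta) (j : ℕ) (e ε : ℝ) {V : Type} [NormedAddCommGroup V] [NormedSpace ℝ V]
    (f : (W.Z M.c0).M → V) : Prop :=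
  ∀ w : List (Option κ), w.length ≤ j → ∀ x,
    ‖(d.FX τ).F0.Dw w f x‖ ≤ ε * Real.exp (-e * d.hX τ x)

/-- a global gauge in which `y` is close to the pre-glued configuration -/
structure Gg (τ : d.Ta) (y : J.Obc M.c0) (u : U) (θ : Circle)
    (g : (W.Z M.c0).M → CL y.x.m.V (d.rf τ u).m.V) (j : ℕ) (e ε : ℝ) : Prop where
  iso : Pj41.Iso0 (W.Z M.c0).I y.x.m (d.rf τ u).m univ g
  A : ∀ i, d.WB τ j e ε (Bki64.dA (J.G M.c0 y.s).F y.x (d.rf τ u) g i)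
  P : d.WB τ j e ε (Bki64.dP y.x (d.rf τ u) g θ)
  u : ‖u‖ ≤ ε
  z : ‖((θ : ℂ) ^ 2) • y.x.z - d.y.x.z‖ ≤ ε
  ψ : ∀ k, ∃ η : Circle, ‖(csE d.Jc η ∘L g (J.cut M.c0 k).x0).compLpL 2 μc
    (y.ψ k : L2c (Fin y.x.m.N)) - (d.y.ψ k : L2c (Fin d.N))‖ ≤ ε

/-- global gauges exist (`Asm : Pat → Glb`, `Fin : Trf → Glb → DG`) -/
def Glb : Prop := ∃ e > δ, ∀ (α : Type) (𝒰 : Ultrafilter α) (q : α → Wi →₀ ℝ)
  (y : α → J.Obc M.c0), St.Cv (𝒰 : Filter α) q q₀ → (∀ᶠ i in (𝒰 : Filter α), Sol σ (q i) (y i)) →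
  Dg 𝒰 y d.y → ∀ j : ℕ, ∀ ε > 0, ∀ᶠ i in (𝒰 : Filter α),
    ∃ (τ : d.Ta) (u : U) (θ : Circle) (g : _), (τ : ℝ) = (y i).s a ∧ d.Gg τ (y i) u θ g j e ε

end Crest.Agent.X212.Gj67.Dat
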