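import Crest.Agent.X212.Gl67.Leaf
import Crest.Agent.X212.Bki64.Rig

/-!
# Row 212, GL-DG (helper64): the two inputs which depend on the wall
-/

set_option autoImplicit false
set_option linter.unusedSectionVars false
noncomputable section
open scoped Manifold ContDiff Topology
open Set Function Filter

namespace Crest.Agent.X212.Gj67.Dat
open An An.Job M Nd18
open Bki64 (Cl Stb win)

variable {Wi : Type} {X : Mf 4} {A κ lam : Type} [Fintype A] [Fintype κ] [Fintype lam]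
  [DecidableEq lam] {M : Mark X A κ} {W : World M} {L : ML M lam} {Λ : Lns W L}
  {A' h : Type} [Fintype A'] [DecidableEq A'] [Fintype h] {r n : ℕ}
  {J : Job Wi Λ A' h r n} {σ : Cel A'} {a : A'}
  {U Up R : Type} [NormedAddCommGroup U] [NormedSpace ℝ U] [NormedAddCommGroup Up]
  [NormedSpace ℝ Up] [NormedAddCommGroup R] [NormedSpace ℝ R] (d : Dat J σ a U Up R)
  (q₀ : Wi →₀ ℝ) (δ : ℝ)

/-- INPUT NKD: exponential decay on the long neck, towards a moving limit -/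
def NkD : Prop := ∃ e > δ, ∀ (α : Type) (𝒰 : Ultrafilter α) (q : α → Wi →₀ ℝ)
  (y : α → J.Obc M.c0), St.Cv (𝒰 : Filter α) q q₀ → (∀ᶠ i in (𝒰 : Filter α), Sol σ (q i) (y i)) →
  Dg 𝒰 y d.y → ∀ j : ℕ, ∀ B > 0, ∃ T, ∀ᶠ i in (𝒰 : Filter α),
    ∃ (ha : Act J.m M.c0 d.x none (J.Θ (y i).s)) (u : U) (ζ : Circle)
      (v : d.Y × ℝ → CL (y i).x.m.V (d.β u).m.V), ‖u‖ ≤ B ∧
      ∀ s ∈ Icc T (nl ((J.Θ (y i).s).2 d.x) - T),
        Cl d.D.Z ((J.K _ d.x none _ ha).pb (y i).x) (cy (d.β u)) v (fun _ => ζ) (win d.Y s 1) j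
          (B * Real.exp (-e * min (s - T) (nl ((J.Θ (y i).s).2 d.x) - T - s)))

/-- an automorphism of the face object with the phase `η` -/
def Aut (g : (W.Z (J.cf a)).M → En (Fin d.N)) (η : Circle) : Prop :=
  CEq (J.G (J.cf a) d.y.s).F d.y.x d.y.x univ id (fun x b a' => (J.B (J.cf a)).P b a' x)
      (J.B (J.cf a)).l g η ∧
    ∀ i, (J.cut (J.cf a) i).Eqv (J.cut (J.cf a) i) (J.B _) (J.B _) g (d.y.ψ i) (d.y.ψ i)

/-- INPUT STAB: the limits form a slice, and there is no gluing parameter -/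
def Stab : Prop := ∃ ρ > 0, ∀ u : U, ‖u‖ ≤ ρ → ∀ (γ : Bool → d.Y → En (Fin d.N)) (ξ : Circle),
  (∀ b, Stb d.D (d.β 0) (d.β u) (γ b) ξ) → u = 0 ∧
    ∃ (g : (W.Z (J.cf a)).M → En (Fin d.N)) (γ' : d.Y → En (Fin d.N)) (ξ' : Circle),
      d.Aut g (ξ' * ξ) ∧ (∀ᶠ u' in 𝓝 (0 : U), Stb d.D (d.β u') (d.β u') γ' ξ') ∧
      ∀ b, ∀ ε > 0, ∀ᶠ s in atTop, ∀ y, ‖g ((d.KS b).ψ (y, -pm b * s)) - γ' y ∘L γ b y‖ ≤ ε

end Crest.Agent.X212.Gj67.Dat
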