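import Crest.Agent.X212.Dg64.Pat
import Crest.Agent.X212.Dw82.Wnd
import Crest.Agent.X212.Dw82.Vol
import Crest.Agent.X212.Lw78.Frm
import Crest.Agent.X212.Cyl58.FinB
import Crest.Agent.X212.Sep15.Trf
import Crest.Agent.X212.Dgr80.As
import Crest.Agent.X212.Nk89.Gws

/-!
# Row 212, GL-DG (helper64): the assembly
-/

set_option autoImplicit false
noncomputable section

namespace Crest.Agent.X212.Dg64
open An M Gj67

variable {Wi : Type} {X : Mf 4} {A κ lam : Type} [Fintype A] [Fintype κ] [Fintype lam]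
  [DecidableEq lam] {M : Mark X A κ} {W : World M} {L : ML M lam} {Λ : Lns W L}
  {A' h : Type} [Fintype A'] [DecidableEq A'] [Fintype h] {r n : ℕ}
  {J : Job Wi Λ A' h r n} {σ : Cel A'} {a : A'}
  {U Up R : Type} [NormedAddCommGroup U] [NormedSpace ℝ U] [NormedAddCommGroup Up]
  [NormedSpace ℝ Up] [NormedAddCommGroup R] [NormedSpace ℝ R] {d : Dat J σ a U Up R}
  {q₀ : Wi →₀ ℝ} {δ : ℝ}

/-- **GL-DG** -/
theorem dg [FiniteDimensional ℝ U] (H : d.OK q₀ δ) (G : d.Geo) (B : d.Base) (hN : d.NkD q₀ δ)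
    (hS : d.Stab) (k : ℕ) : d.DG q₀ δ k :=
  Fin58.fin H G B (Lw78.Fr.frm H) (Dw82.vol H G) (Sep15.Trf.trf H)
    (Dgr80.asm H (pat H hN hS (Sep15.Trf.ucp H) (Dw82.wnd H)))

theorem dgL (J : Job Wi Λ A' h r n) : Nk89.DgL J := fun _ _ _ _ _ _ _ _ H g hN hS =>
  dg H g.geo g.base hN hS 8

end Crest.Agent.X212.Dg64
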