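import Crest.Agent.X212.Dg64.Wt
import Crest.Agent.X212.Dg64.Rig
import Crest.Agent.X212.Glw30.Gen
import Crest.Agent.X212.End14.Cyl

/-!
# Row 212, GL-DG (helper64): change of the target, bands, gluing of the three gauges of a neck
-/

set_option autoImplicit false
set_option linter.unusedSectionVars false
noncomputable section
open scoped Manifold ContDiff Topology InnerProductSpace
open MeasureTheory Set Function Filter Real

namespace Crest.Agent.X212.Dg64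
open An Sob92 Cyf70 Neck67 Cmp73 Pj41 Eqv71 Tmp64 Nd18 Std94 Bki64
open M (pm)
open Cay24 (OB)

theorem ev_choice {α : Type} {l : Filter α} {β : α → Type} [∀ i, Nonempty (β i)]
    {p : ∀ i, β i → Prop} (h : ∀ᶠ i in l, ∃ y, p i y) : ∃ f : ∀ i, β i, ∀ᶠ i in l, p i (f i) :=
  ⟨fun i => Classical.epsilon (p i), h.mono fun _ hi => Classical.epsilon_spec hi⟩

theorem pm_σ (b : Bool) : -pm b = 1 ∨ -pm b = -1 := by cases b <;> simp [pm]

section gen
variable {E : Type} [NormedAddCommGroup E] [NormedSpace ℝ E] [FiniteDimensional ℝ E]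
  [MeasurableSpace E] [BorelSpace E]
  {HM : Type} [TopologicalSpace HM] {I : ModelWithCorners ℝ E HM}
  {M : Type} [TopologicalSpace M] [ChartedSpace HM M] [IsManifold I ∞ M]
  [MeasurableSpace M] {ι : Type} [Fintype ι] {lam : Type} [Fintype lam] {r r' r'' : ℕ}
  {F : Fr I M ι} {c : Cfg M ι lam r} {c' : Cfg M ι lam r'} {u : M → CL c.m.V c'.m.V}
  {ζ : M → Circle} {O : Set M} {k : ℕ} {η η' : ℝ}

/-- change of the target -/
theorem cl_ret {p ρ j W Φ} {z : EuclideanSpace ℂ (Fin r'')} (h : Cl F c c' u ζ O k η)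
    (hp : ∀ x ∈ O, p x = c'.m.p x) (hρ : ∀ a, ∀ x ∈ O, ρ a x = c'.m.ρ a x)
    (hj : ∀ x ∈ O, j x = c'.m.j x)
    (hW : ∀ a, Lb F.toPre O k (fun x => (W a x - c'.W a x) ∘L c'.m.p x) η')
    (hΦ : Lb F.toPre O k (fun x => c'.Φ x - Φ x) η') :
    Cl F c (⟨⟨c'.m.N, c'.m.J, p, ρ, j⟩, W, Φ, z⟩ : Cfg M ι lam r'') u ζ O k (η + η') := by
  refine ⟨h.op, ⟨h.iso.su, fun x hx => (show CIso (u x) _ (p x) from
      (hp x hx).symm ▸ h.iso.iso x hx), h.iso.J,
    fun x hx b => (congrArg (· ∘L u x) (hρ b x hx)).trans (h.iso.ρ x hx b),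
    fun x hx s => (congrArg (fun t => t s ∘L u x) (hj x hx)).trans (h.iso.j x hx s)⟩,
    fun a => (Lb.add h.op (h.A a) (hW a)).congr h.op fun x hx => ?_,
    (Lb.add h.op h.P hΦ).congr h.op fun x _ => (sub_add_sub_cancel _ _ _).symm⟩
  rw [← (h.iso.iso x hx).tgt, ad_trn, ← ContinuousLinearMap.comp_assoc, dA, dA,
    ← ContinuousLinearMap.add_comp, cov, cov, ContinuousLinearMap.sub_comp (W a x)]
  congr 1
  abel

theorem cl_id {f : M → M} (hf : f = id) {u : M → CL (pb f c).m.V c'.m.V}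
    (h : Cl F (pb f c) c' u ζ O k η) : Cl F c c' u ζ O k η := by
  subst hf
  exact h

section co
variable {α : Type} {l : Filter α} {S : α → Set M} {e e' : α → ℝ} {ρ' : α → ℕ}
  {c : ∀ n, Cfg M ι lam (ρ' n)} {u : ∀ n, M → CL (c n).m.V c'.m.V} {ζ : α → M → Circle}

theorem ob_mono {N : Type} [NormedAddCommGroup N] [NormedSpace ℝ N] {F : Pre I M ι}
    {f : α → M → N} (h : OB F l S k e f) (he : ∀ᶠ n in l, e n ≤ e' n) : OB F l S k e' f :=
  let ⟨C, h0, h⟩ := h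
  ⟨C, h0, (h.and he).mono fun _ h =>
    ⟨h.1.1, h.1.2.mono (mul_le_mul_of_nonneg_left (exp_le_exp.2 h.2) h0)⟩⟩

theorem CO.ret {p ρ j W Φ} {z : EuclideanSpace ℂ (Fin r'')} (H : CO F l S k e c c' u ζ)
    (hp : ∀ᶠ n in l, ∀ x ∈ S n, p x = c'.m.p x ∧ (∀ a, ρ a x = c'.m.ρ a x) ∧ j x = c'.m.j x)
    (hW : ∀ a, OB F.toPre l S k e fun _ x => (W a x - c'.W a x) ∘L c'.m.p x)
    (hΦ : OB F.toPre l S k e fun _ x => c'.Φ x - Φ x) :
    CO F l S k e c (⟨⟨c'.m.N, c'.m.J, p, ρ, j⟩, W, Φ, z⟩ : Cfg M ι lam r'') u ζ := by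
  obtain ⟨C1, p1, h1⟩ := H
  obtain ⟨C0, p0, h0⟩ := hΦ
  choose C p h using hW
  have hs : 0 ≤ ∑ a, C a := Finset.sum_nonneg fun a _ => p a
  refine ⟨C1 + (C0 + ∑ a, C a), by positivity, ?_⟩
  filter_upwards [h1, h0, eventually_all.2 h, hp] with n k1 k2 k3 k4
  rw [add_mul]
  refine cl_ret k1 (fun x hx => (k4 x hx).1) (fun a x hx => (k4 x hx).2.1 a)
    (fun x hx => (k4 x hx).2.2) (fun a => (k3 a).2.mono ?_) (k2.2.mono ?_) <;>
    refine mul_le_mul_of_nonneg_right ?_ (exp_pos _).le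
  · linarith [Finset.single_le_sum (fun a _ => p a) (Finset.mem_univ a)]
  · linarith

end co

variable [I.Boundaryless] {B : Base M ι lam} {α : Type} {l : Filter α}
  {e : α → ι → Π x : M, TangentSpace I x} {c : α → Cfg M ι lam r} {c₀ : Cfg M ι lam r}
  {u : ∀ i, M → CL (c i).m.V c₀.m.V} {ζ θ : α → Circle}

/-- change of the phases -/
theorem ulim_phase (h : ULim I B l O e c c₀ u ζ) (hJ : c₀.m.J * c₀.m.J = -1)
    (hθ : Tendsto (fun i => θ i / ζ i) l (𝓝 1)) : ULim I B l O e c c₀ u θ := by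
  have h1 := (continuous_subtype_val.tendsto _).comp hθ
  refine ⟨h.m, h.A, (((Cv.consts h1).clm (csB c₀.m.J)).app h.Φ).congr
    (fun x _ => .of_forall fun q => ?_) fun _ _ => (cs_one _ _).symm, ?_⟩
  · rw [csB_apply, cs_mul hJ]
    exact congrArg (cs _ · _) (by simp)
  · simpa [smul_smul, div_pow] using (h1.pow 2).smul h.z

end gen

theorem slice_est {a b : Type} [Fintype a] [Fintype b] {u : CL (Eu a) (Eu b)} {v : CL (Eu a) (Eu b)}
    {g γ γ' p : En b} {q : En a} (hu : CIso u q p) (hv : CIso v q p) (h1 : CIso γ p p)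
    (h2 : CIso γ' p p) : ‖(γ' ∘L v) ∘L ad (g ∘L u) - p‖ ≤ ‖g - γ' ∘L γ‖ + ‖v ∘L ad u - γ‖ := by
  have h3 := h1.trans h2
  have e : (γ' ∘L v) ∘L ad (g ∘L u) - p = (γ' ∘L v ∘L ad u) ∘L ad (g - γ' ∘L γ) +
      γ' ∘L (v ∘L ad u - γ) ∘L ad (γ' ∘L γ) := by
    rw [← h3.tgt, ad_sub, ad_comp g]
    simp only [ContinuousLinearMap.comp_sub, ContinuousLinearMap.sub_comp,
      ContinuousLinearMap.comp_assoc]
    abel
  have n : ∀ {s t : En b}, ‖s‖ ≤ 1 → ‖s ∘L t‖ ≤ ‖t‖ := fun h =>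
    (ContinuousLinearMap.opNorm_comp_le _ _).trans (mul_le_of_le_one_left (norm_nonneg _) h)
  rw [e]
  refine (norm_add_le _ _).trans (add_le_add ((n (norm_iso ((hu.symm.trans hv).trans h2))).trans_eq
    (ad_eq_adjoint (g - γ' ∘L γ) ▸ ContinuousLinearMap.adjoint.norm_map _)) ((n (norm_iso h2)).trans ((ContinuousLinearMap.opNorm_comp_le _ _).trans
      (mul_le_of_le_one_right (norm_nonneg _) (norm_iso h3.symm)))))

variable {E3 : Type} [NormedAddCommGroup E3] [NormedSpace ℝ E3] [FiniteDimensional ℝ E3]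
  [MeasurableSpace E3] [BorelSpace E3]
  {H3 : Type} [TopologicalSpace H3] {I3 : ModelWithCorners ℝ E3 H3} [I3.Boundaryless]
  {Y : Type} [TopologicalSpace Y] [ChartedSpace H3 Y] [IsManifold I3 ∞ Y] [T2Space Y]
  [MeasurableSpace Y] [BorelSpace Y] [SecondCountableTopology Y] [CompactSpace Y]
  {κ : Type} [Fintype κ] {lam : Type} [Fintype lam] {D : YD I3 Y κ lam} {β : YC Y κ lam}
  {k r r' : ℕ} {σ e T n η : ℝ} {c : Cfg (Y × ℝ) (Option κ) lam r}
  {c' : Cfg (Y × ℝ) (Option κ) lam r'} {ζ : Circle}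

theorem mem_win {s L : ℝ} {x : Y × ℝ} : x ∈ win Y s L ↔ |x.2 - s| < L := by
  simp only [win, mem_prod, mem_univ, true_and, mem_Ioo, abs_lt]
  constructor <;> rintro ⟨a, b⟩ <;> constructor <;> linarith

theorem mem_win' (hσ : σ = 1 ∨ σ = -1) {s L : ℝ} {x : Y × ℝ} :
    x ∈ win Y (σ * s) L ↔ |σ * x.2 - s| < L := by
  rw [mem_win, ← Cay24.abs_σ hσ, mul_sub, Cay24.σ_σ hσ]

theorem win_bn (hσ : σ = 1 ∨ σ = -1) : win Y (σ * T) 1 ⊆ bn Y σ T := fun _ hx =>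
  have := abs_lt.1 ((mem_win' hσ).1 hx)
  ⟨by linarith [this.1], by linarith [this.2]⟩

theorem cl_bn (hσ : σ = 1 ∨ σ = -1) {u : Y × ℝ → CL c.m.V c'.m.V}
    (h : ∀ m ∈ Finset.range 4, Cl D.Z c c' u (fun _ => ζ) (win Y (σ * (T + m)) 1) k η) :
    Cl D.Z c c' u (fun _ => ζ) (bn Y σ T) k η := Cl.of_local (bn_op _ _) fun x hx => by
  have f0 := Nat.lt_floor_add_one (max (σ * x.2 - T) 0)
  have f1 := Nat.floor_le (le_max_right (σ * x.2 - T) 0)
  have f2 := le_max_left (σ * x.2 - T) 0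
  have f3 : max (σ * x.2 - T) 0 < σ * x.2 - T + 1 := max_lt (by linarith) (by linarith [hx.1])
  refine ⟨_, u, _, (mem_win' hσ).2 (abs_lt.2 ⟨by linarith, by linarith⟩), .rfl, .rfl,
    h ⌊max (σ * x.2 - T) 0⌋₊ (Finset.mem_range.2 ((Nat.floor_lt (le_max_right _ _)).2 ?_))⟩
  exact max_lt (by push_cast; linarith [hx.2]) (by norm_num)

/-- the shift of the end `b` of a neck of length `n` -/
abbrev sf (b : Bool) (n : ℝ) : ℝ := if b then n else 0

/-- the gauge of the neck on the bands -/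
theorem nk_bn (b : Bool) {v : Y × ℝ → CL c.m.V (cy β).m.V} {T0 B : ℝ} (hn : 2 * (T + 4) ≤ n)
    (hT : T0 ≤ T) (hB : 0 ≤ B) (he : 0 ≤ e) (h : ∀ s ∈ Icc T0 (n - T0), Cl D.Z c (cy β) v
      (fun _ => ζ) (win Y s 1) k (B * exp (-e * min (s - T0) (n - T0 - s)))) :
    Cl D.Z (sh (sf b n) c) (cy β) (fun x => v (Tmp64.sq (· + sf b n) x)) (fun _ => ζ)
      (bn Y (-pm b) T) k (B * exp (e * T0) * exp (-e * T)) := cl_bn (pm_σ b) fun m hm => by
  have h0 : (m : ℝ) ≤ 3 := by exact_mod_cast Nat.le_of_lt_succ (Finset.mem_range.1 hm)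
  have h1 := m.cast_nonneg (α := ℝ)
  have h2 : T - T0 ≤ -pm b * (T + m) + sf b n - T0 ∧
      T - T0 ≤ n - T0 - (-pm b * (T + m) + sf b n) := by
    cases b <;> simp only [pm, sf] <;> constructor <;> norm_num <;> linarith
  have := (h (-pm b * (T + m) + sf b n) ⟨by linarith [h2.1], by linarith [h2.2]⟩).sh (sf b n)
  rw [win_tr rfl] at this
  refine Cl.mono this (win_op _ _) Subset.rfl le_rfl ?_
  rw [mul_assoc, ← exp_add]
  exact mul_le_mul_of_nonneg_left (exp_le_exp.2 (by nlinarith [le_min h2.1 h2.2])) hB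

/-- **gluing of the three gauges** -/
theorem glue3 {w : Bool → Y × ℝ → CL c.m.V (cy β).m.V} {v : Y × ℝ → CL c.m.V (cy β).m.V}
    {φ : ℝ → ℝ} (hn : 2 * (T + 4) ≤ n)
    (h1 : ∀ b, Cl D.Z (sh (sf b n) c) (cy β) (w b) (fun _ => ζ) (bn Y (-pm b) T) k η)
    (h2 : ∀ b, ∀ x ∈ bn Y (-pm b) T, T + 2 < -pm b * x.2 → w b x = v (Tmp64.sq (· + sf b n) x))
    (h3 : ∀ s ∈ Icc (T + 3) (n - (T + 3)), Cl D.Z c (cy β) v (fun _ => ζ) (win Y s 1) k (φ s))
    (h4 : ∀ s, min s (n - s) ≤ T + 3 → η ≤ φ s) : ∃ v' : Y × ℝ → CL c.m.V (cy β).m.V,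
      (∀ b z s, |s - T| < 1 → v' (z, if b then n - s else s) = w b (z, -pm b * s)) ∧
      ∀ s ∈ Icc T (n - T), Cl D.Z c (cy β) v' (fun _ => ζ) (win Y s 1) k (φ s) := by
  have k1 : ∀ b, Cl D.Z c (cy β) (fun x => w b (x.1, x.2 - sf b n)) (fun _ => ζ)
      {x | -pm b * (x.2 - sf b n) ∈ Ioo (T - 1) (T + 4)} k η := fun b =>
    cl_id (f := fun x => (x.1, x.2 + -sf b n + sf b n)) (funext fun x => by simp)
      ((h1 b).sh (-sf b n))
  have k2 : ∀ b (x : Y × ℝ), -pm b * (x.2 - sf b n) ∈ Ioo (T + 2) (T + 4) →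
      w b (x.1, x.2 - sf b n) = v x := fun b x hx =>
    (h2 b _ ⟨by linarith [hx.1], hx.2⟩ hx.1).trans (by simp [Tmp64.sq])
  have e0 : ∀ t : ℝ, -pm false * (t - sf false n) = t := fun t => by simp [pm]
  have e1 : ∀ t : ℝ, -pm true * (t - sf true n) = n - t := fun t => by simp [pm]
  classical
  refine ⟨fun x => if x.2 < T + 3 then w false (x.1, x.2 - sf false n) else
    if n - x.2 < T + 3 then w true (x.1, x.2 - sf true n) else v x, fun b z s hs => ?_,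
    fun s hs => ?_⟩
  · rw [abs_lt] at hs
    cases b
    · simp [pm, sf, show s < T + 3 by linarith]
    · simp [pm, sf, show s < T + 3 by linarith, show ¬n - s < T + 3 by linarith]
  rcases le_or_gt s (T + 3) with a | a
  · refine ((k1 false).mono (win_op _ _) (fun x hx => ?_) le_rfl
      (h4 s ((min_le_left _ _).trans a))).congr (fun x hx => ?_) fun _ _ => rfl <;>
      have := abs_lt.1 (mem_win.1 hx)
    · exact mem_ofPred_eq ▸ (e0 _).symm ▸ ⟨by linarith [hs.1], by linarith⟩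
    · split_ifs with p q
      · rfl
      · linarith
      · exact (k2 false x ((e0 _).symm ▸ ⟨by linarith, by linarith⟩)).symm
  rcases le_or_gt (n - s) (T + 3) with a' | a'
  · refine ((k1 true).mono (win_op _ _) (fun x hx => ?_) le_rfl
      (h4 s ((min_le_right _ _).trans a'))).congr (fun x hx => ?_) fun _ _ => rfl <;>
      have := abs_lt.1 (mem_win.1 hx)
    · exact mem_ofPred_eq ▸ (e1 _).symm ▸ ⟨by linarith [hs.2], by linarith⟩
    · split_ifs with p q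
      · linarith
      · rfl
      · exact (k2 true x ((e1 _).symm ▸ ⟨by linarith, by linarith⟩)).symm
  refine (h3 s ⟨a.le, by linarith⟩).congr (fun x hx => ?_) fun _ _ => rfl
  have := abs_lt.1 (mem_win.1 hx)
  split_ifs with p q
  · exact k2 false x ((e0 _).symm ▸ ⟨by linarith, by linarith⟩)
  · exact k2 true x ((e1 _).symm ▸ ⟨by linarith, by linarith⟩)
  · rfl

variable {α : Type} {l : Filter α}

theorem ev_lt {p : ℝ → Prop} (h : ∀ᶠ T in atTop, p T) : ∀ᶠ q in LT l, p q.1 :=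
  eventually_curry_iff.2 (h.mono fun _ h => .of_forall fun _ => h)

theorem ev_lt' {p : α → Prop} (h : ∀ᶠ i in l, p i) : ∀ᶠ q in LT l, p q.2 :=
  eventually_curry_iff.2 (.of_forall fun _ => h)

theorem ob_dec {N : Type} [NormedAddCommGroup N] [NormedSpace ℝ N] {R : ℝ} (hσ : σ = 1 ∨ σ = -1)
    (he : 0 ≤ e) (k : ℕ) : ∀ {f : Y × ℝ → N}, (∀ x : Y × ℝ, R < σ * x.2 → FSm (IC I3) f x) →
      (∀ w, ∃ C, ∀ x : Y × ℝ, R < σ * x.2 → ‖D.Z.Dw w f x‖ ≤ C * exp (-e * |x.2|)) →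
      OB D.Z.toPre (LT l) (fun q => bn Y σ q.1) k (fun q => -e * q.1) fun _ => f := by
  have h0 : ∀ {f : Y × ℝ → N}, (∀ x : Y × ℝ, R < σ * x.2 → FSm (IC I3) f x) →
      (∀ w, ∃ C, ∀ x : Y × ℝ, R < σ * x.2 → ‖D.Z.Dw w f x‖ ≤ C * exp (-e * |x.2|)) →
      OB D.Z.toPre (LT l) (fun q => bn Y σ q.1) 0 (fun q => -e * q.1) fun _ => f := fun h1 h2 => by
    obtain ⟨C, hC⟩ := h2 []
    refine ⟨|C| * exp e, by positivity, (ev_lt (eventually_ge_atTop (R + 1))).mono fun q hq =>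
      ⟨bn_op _ _, fun x hx => ?_⟩⟩
    have h3 : R < σ * x.2 := by linarith [hx.1]
    have h4 : q.1 - 1 ≤ |x.2| := by rw [← Cay24.abs_σ hσ]; exact hx.1.le.trans (le_abs_self _)
    refine ⟨h1 x h3, (hC x h3).trans ?_⟩
    rw [mul_assoc, ← exp_add]
    exact mul_le_mul (le_abs_self C) (exp_le_exp.2 (by nlinarith)) (exp_pos _).le (abs_nonneg C)
  induction k with
  | zero => exact h0
  | succ k ih => exact fun h1 h2 => ob_succ (h0 h1 h2) fun a => (ih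
      (fun x hx => dv_smoothAt (D.Z.sm a x) (h1 x hx)) fun w => h2 (a :: w))

/-- the limit of the transition functions -/
theorem lim_iso {𝒰 : Ultrafilter α} {β' : YC Y κ lam} (hβ : D.Adm β) (hβ' : D.Adm β')
    (hσ : σ = 1 ∨ σ = -1) {c : α → Cfg (Y × ℝ) (Option κ) lam r}
    {u : ∀ i, Y × ℝ → CL (c i).m.V (cy β).m.V} {v : ∀ i, Y × ℝ → CL (c i).m.V (cy β').m.V}
    {θ ζ : α → Circle} {ξ : Circle}
    (ha : ∀ᶠ q in LT (𝒰 : Filter α), AdmOn (c q.2) D.B D.G (bn Y σ q.1))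
    (hu : CZ D.Z (LT 𝒰) (fun q => bn Y σ q.1) 0 (fun q => c q.2) (cy β) (fun q => u q.2)
      fun q _ => θ q.2)
    (hv : CZ D.Z (LT 𝒰) (fun q => bn Y σ q.1) 0 (fun q => c q.2) (cy β') (fun q => v q.2)
      fun q _ => ζ q.2) (hξ : Tendsto (fun i => ζ i / θ i) 𝒰 (𝓝 ξ)) :
    ∃ γ : Y → CL (cy β).m.V (cy β').m.V, Stb D β β' γ ξ ∧ ∀ ε > 0, ∀ᶠ m : ℕ in hyperfilter ℕ,
      ∀ᶠ i in (𝒰 : Filter α), ∀ y, ‖v i (y, σ * m) ∘L ad (u i (y, σ * m)) - γ y‖ ≤ ε := by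
  have h1 := CZ.quot (G := D.G) hu hv ha (fx_cy hβ hu.op) (fx_cy hβ' hu.op)
    (BB.consts hu.op (C := 1) (.of_forall fun _ => (Circle.norm_coe _).le))
  obtain ⟨γ, ξ0, k1, k2, k3⟩ := rig1 (𝒰 := End14.itU 𝒰) (s := fun p => σ * p.2)
    (t := fun p x => v p.1 x ∘L ad (u p.1 x)) (ξ := fun p => ζ p.1 / θ p.1) hβ hβ' one_pos
    fun ε hε => End14.ev_itU.2 ((End14.hyp_top.eventually (eventually_curry_iff.1 (h1 ε hε))).mono
      fun _ h => h.mono fun _ h => h.mono (win_op _ _) (win_bn hσ) le_rfl le_rfl)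
  exact ⟨γ, tendsto_nhds_unique k2 (hξ.comp End14.fst_itU) ▸ k1, fun ε hε =>
    End14.ev_itU.1 (k3 ε hε)⟩

end Crest.Agent.X212.Dg64
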