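import Crest.Agent.X212.Dg64.Cy
import Crest.Agent.X212.Dg64.Lf
import Crest.Agent.X212.Glw30.Main
import Crest.Agent.X212.Nck90.Trn

/-!
# Row 212, GL-DG (helper64): the leaf PAT
-/

set_option autoImplicit false
set_option linter.unusedSectionVars false
noncomputable section
open scoped Manifold ContDiff Topology InnerProductSpace
open MeasureTheory Set Function Filter Real

namespace Crest.Agent.X212.Dg64
open An An.Job M Sob92 Cyf70 Neck67 Cmp73 Pj41 Eqv71 Tmp64 Nd18 Bki64 Gj67 Gj67.Dat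
open Cay24 (OB)

theorem lb_par {E : Type} [NormedAddCommGroup E] [NormedSpace ℝ E] [FiniteDimensional ℝ E]
    [MeasurableSpace E] [BorelSpace E] {HM : Type} [TopologicalSpace HM]
    {I : ModelWithCorners ℝ E HM} {M : Type} [TopologicalSpace M] [ChartedSpace HM M]
    [IsManifold I ∞ M] [MeasurableSpace M] {ι : Type} [Fintype ι] {F : Pre I M ι} {U V V' : Type}
    [NormedAddCommGroup U] [NormedSpace ℝ U] [NormedAddCommGroup V] [NormedSpace ℝ V]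
    [NormedAddCommGroup V'] [NormedSpace ℝ V'] {b : M → CL U V} {p : M → CL V' V'} (hb : F.Cb b)
    (hp : F.Cb p) (P : ι → CL V (CL V' V')) (k : ℕ) :
    ∃ K ≥ 0, ∀ i w O, IsOpen O → Lb F O k (fun x => P i (b x w) ∘L p x) (K * ‖w‖) := by
  obtain ⟨C, hC⟩ := hb
  obtain ⟨C', hC'⟩ := hp
  have hs : ∀ i, ‖P i‖ ≤ ∑ i, ‖P i‖ := fun i =>
    Finset.single_le_sum (f := fun i => ‖P i‖) (fun _ _ => norm_nonneg _) (Finset.mem_univ i)
  refine ⟨2 ^ k * ((∑ i, ‖P i‖) * (2 ^ k * |C k|)) * |C' k|, by positivity, fun i w O h =>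
    (Lb.comp h (Lb.clm h (P i) (Lb.app h (Lb.of_CB hC.1 (hC.2 k)) (Lb.const h w)))
      (Lb.of_CB hC'.1 (hC'.2 k))).mono ?_⟩
  rw [abs_norm, abs_of_nonneg (by positivity)]
  calc _ ≤ 2 ^ k * ((∑ i, ‖P i‖) * (2 ^ k * |C k| * ‖w‖)) * |C' k| := by gcongr; exact hs i
    _ = _ := by ring

theorem cl_eq {E : Type} [NormedAddCommGroup E] [NormedSpace ℝ E] [FiniteDimensional ℝ E]
    [MeasurableSpace E] [BorelSpace E] {HM : Type} [TopologicalSpace HM]
    {I : ModelWithCorners ℝ E HM} {M M' : Type} [TopologicalSpace M] [ChartedSpace HM M]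
    [IsManifold I ∞ M] [MeasurableSpace M] {ι lam : Type} [Fintype ι] [Fintype lam] {F : Fr I M ι}
    {r r' k : ℕ} {c : Cfg M' ι lam r} {c' : Cfg M ι lam r'} {f f' : M → M'} (e : f = f')
    {u : M → CL c.m.V c'.m.V} {ζ O η} (h : Cl F (pb f c) c' u ζ O k η) :
    Cl F (pb f' c) c' u ζ O k η := e ▸ h

variable {Wi : Type} {X : Mf 4} {A κ lam : Type} [Fintype A] [Fintype κ] [Fintype lam]
  [DecidableEq lam] {M : Mark X A κ} {W : World M} {L : ML M lam} {Λ : Lns W L}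
  {A' h : Type} [Fintype A'] [DecidableEq A'] [Fintype h] {r n : ℕ}
  {J : Job Wi Λ A' h r n} {σ : Cel A'} {a : A'}
  {U Up R : Type} [NormedAddCommGroup U] [NormedSpace ℝ U] [NormedAddCommGroup Up]
  [NormedSpace ℝ Up] [NormedAddCommGroup R] [NormedSpace ℝ R] {d : Dat J σ a U Up R}
  {q₀ : Wi →₀ ℝ} {δ : ℝ} (H : d.OK q₀ δ) {α : Type} {l : Filter α} {y : α → J.Obc M.c0}
include H

theorem hD : d.D.OK := (H.ok.xs d.x).1.yd

theorem ev_adm : ∀ᶠ u in 𝓝 (0 : U), d.D.Adm (d.β u) := H.crit.mono fun _ h => ⟨h.sol.toAdm, h.tmp⟩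

theorem adm0 : d.D.Adm (d.β 0) := (ev_adm H).self_of_nhds

theorem ln_top {q : α → Wi →₀ ℝ} (hy : ∀ᶠ i in l, Sol σ (q i) (y i))
    (hs : Tendsto (fun i => (y i).s) l (𝓝 d.y.s)) : Tendsto (fun i => d.ln (y i)) l atTop := by
  have e : (J.Θ d.y.s).2 d.x = 1 := (d.hb true).2.1.2 (d.hb true).2.2.2
  refine tendsto_nl.comp (tendsto_nhdsWithin_iff.2 ⟨e ▸ (((continuous_apply d.x).comp
    (continuous_snd.comp H.ok.sm.continuous)).tendsto _).comp hs, hy.mono fun i hi => ?_⟩)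
  exact lt_of_le_of_ne ((hi.par H.ok H.mem).1 d.x).2 fun k => (hi.inf.le k).elim

theorem mem_KS {b : Bool} {t : ℝ} (ht : 0 < -pm b * t) : t ∈ (d.KS b).J := by
  have k := H.ok.nk _ _ _ _ (d.hb b)
  rw [Nk.J, k.lo, k.hi]
  cases b <;> simpa [Jv, pm] using ht

theorem adm_KS (b : Bool) : AdmOn ((d.KS b).pb d.y.x) d.D.B d.D.G {x | 0 < -pm b * x.2} :=
  (Nck90.adm_pb _ H.sol.sol.toAdm).mono fun _ hx => ⟨trivial, mem_KS H hx⟩

/-- change of the moving limit -/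
theorem cl_β (k : ℕ) : ∃ K ≥ 0, ∀ (c : Cfg (d.Y × ℝ) (Option κ) (lam ⊕ lam) r) (u u' : U) v ζ O η,
    Cl d.D.Z c (cy (d.β u)) v ζ O k η → Cl d.D.Z c (cy (d.β u')) v ζ O k (η + K * ‖u' - u‖) := by
  obtain ⟨K, h0, hK⟩ := lb_par (H.okZ 0).cb (H.okZ 0).cp (fun i => opL ∘L PiLp.proj 2 _ i) k
  refine ⟨K, h0, fun c u u' v ζ O η h => cl_ret h (fun _ _ => rfl) (fun _ _ _ => rfl)
    (fun _ _ => rfl) (fun i => (hK i (u' - u) O h.op).congr h.op fun x _ => ?_)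
    (((Lb.const h.op 0).mono ?_).congr h.op fun _ _ => sub_self _)⟩
  · have e : d.AZ i x.1 + opL (d.bZ x.1 u' i) - (d.AZ i x.1 + opL (d.bZ x.1 u i)) =
        opL (d.bZ x.1 (u' - u) i) := by simp
    exact congrArg (· ∘L d.pZ x.1) e
  · rw [norm_zero]; positivity

variable {f : α → d.Y × ℝ → (W.Z M.c0).M}
  (hf : ∀ᶠ i in l, ∃ ha : Act J.m M.c0 d.x none (J.Θ (y i).s), ⇑(J.K _ d.x none _ ha).ψ = f i)
  {q : α → Wi →₀ ℝ} (hy : ∀ᶠ i in l, Sol σ (q i) (y i))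
  (hs : Tendsto (fun i => (y i).s) l (𝓝 d.y.s))
include hf hy hs

theorem adm_c (b : Bool) : ∀ᶠ p in LT l, AdmOn (sh (sf b (d.ln (y p.2))) (pb (f p.2) (y p.2).x))
    d.D.B d.D.G (bn d.Y (-pm b) p.1) := eventually_curry_iff.2 <|
  (eventually_ge_atTop 1).mono fun T hT => by
    filter_upwards [hf, hy, (ln_top H hy hs).eventually_ge_atTop (T + 4)] with i ⟨ha, e⟩ k1 k2
    have k := H.ok.nk _ _ _ _ ha
    refine e ▸ (admOn_sh (Nck90.adm_pb (J.K _ d.x none _ ha) k1.sol.toAdm) _).mono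
      fun x hx => ⟨trivial, ?_⟩
    rw [Nk.J, k.lo, k.hi]
    have h1 : T - 1 < -pm b * x.2 := hx.1
    have h2 : -pm b * x.2 < T + 4 := hx.2
    have h3 : 0 < x.2 + sf b (d.ln (y i)) ∧ x.2 + sf b (d.ln (y i)) < d.ln (y i) := by
      cases b <;> simp only [pm, sf] at h1 h2 ⊢ <;> norm_num at h1 h2 ⊢ <;> constructor <;> linarith
    simpa [Jv, Tmp64.sq] using h3

/-- the local gauges on the bands -/
theorem hu_co (hW : d.Wnd) {g θ} (hg : UL l y d.y.x g θ) {δ' e : ℝ}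
    (hA : ∀ i, d.Dec δ' (d.y.x.W i) (d.AZ i)) (hΦ : d.Dec δ' d.y.x.Φ d.ΦZ) (h0 : 0 ≤ e)
    (h1 : e ≤ δ') (b : Bool) (j : ℕ) :
    CO d.D.Z (LT l) (fun p => bn d.Y (-pm b) p.1) j (fun p => -e * p.1)
      (fun p => sh (sf b (d.ln (y p.2))) (pb (f p.2) (y p.2).x)) (cy (d.β 0))
      (fun p x => g p.2 ((d.KS b).ψ x)) fun p _ => θ p.2 := by
  have hσ := pm_σ b
  have k0 : CO d.D.Z (LT l) (fun p => bn d.Y (-pm b) p.1) j (fun p => -e * p.1)
      (fun p => sh (sf b (d.ln (y p.2))) (pb (f p.2) (y p.2).x)) ((d.KS b).pb d.y.x)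
      (fun p x => g p.2 ((d.KS b).ψ x)) fun p _ => θ p.2 := by
    refine ⟨1, zero_le_one, eventually_curry_iff.2 ((eventually_ge_atTop 2).mono fun T hT => ?_)⟩
    filter_upwards [hf, (eventually_all_finset (Finset.range 4)).2 fun m _ =>
      hW α l y g θ (hy.mono fun i k => ⟨k.ok H.ok H.mem, k.cell⟩) hs hg b (-pm b * (T + m))
        (by rw [Cay24.σ_σ hσ]; linarith [m.cast_nonneg (α := ℝ)]) j _
        (mul_pos one_pos (exp_pos (-e * T)))] with i ⟨ha, e⟩ k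
    exact e ▸ cl_bn hσ fun m hm => k m hm ha
  have k1 : ∀ᶠ p in LT l, ∀ x ∈ bn d.Y (-pm b) p.1, d.R0 < -pm b * x.2 :=
    ev_lt (p := fun T => ∀ x ∈ bn d.Y (-pm b) T, d.R0 < -pm b * x.2)
      ((eventually_ge_atTop (d.R0 + 1)).mono fun T hT x hx => by linarith [hx.1])
  have k2 : ∀ {V : Type} {f : _ → V} {g : d.Y → V}, d.Lit f (fun z => g z.1) → ∀ x : d.Y × ℝ,
      d.R0 < -pm b * x.2 → g x.1 = f ((d.KS b).ψ x) := fun h x hx =>
    (h b x.1 x.2 (pm b) hx (by cases b <;> simp [pm])).symm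
  have k3 : ∀ᶠ p in LT l, -δ' * p.1 ≤ -e * p.1 :=
    ev_lt (p := fun T => -δ' * T ≤ -e * T) ((eventually_ge_atTop 0).mono fun T hT => by nlinarith)
  have k4 := fun x (hx : d.R0 < -pm b * x.2) => show x ∈ {x : d.Y × ℝ | 0 < -pm b * x.2} from
    lt_trans (lt_of_lt_of_le one_pos H.R1) hx
  have f1 := fx_cy (k := j) (adm0 H) k0.op
  refine k0.ret (k1.mono fun p k x hx => ⟨k2 H.lp x (k x hx), fun a => k2 (H.lρ a) x (k x hx),
    k2 H.lj x (k x hx)⟩) (fun i => ?_) (ob_mono (ob_dec hσ (h0.trans h1) j (fun x hx =>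
      ((adm_KS H b).sm x (k4 x hx)).sub ((H.okZ 0).cΦ.choose_spec.1 x))
      fun w => (hΦ w).imp fun _ h => h b) k3)
  refine (((ob_mono (ob_dec hσ (h0.trans h1) j (fun x hx =>
      ((adm_KS H b).conn.sm i x (k4 x hx)).sub (((H.okZ 0).cA i).choose_spec.1 x))
      fun w => (hA i w).imp fun _ h => h b) k3).clm (-ContinuousLinearMap.id ℝ _)).comp
      (f1.p.of_le j.le_succ)).congr (k1.mono fun p k x hx => ?_)
  refine congrArg₂ (· ∘L ·) ?_ (k2 H.lp x (k x hx)).symm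
  show d.AZ i x.1 + opL (d.bZ x.1 0 i) - _ = -(_ - d.AZ i x.1)
  simp

/-- the gauge of the neck on the bands -/
theorem nb_co {u : α → U} {ζ : α → Circle} {v : ∀ i, d.Y × ℝ → CL (y i).x.m.V (Eu (Fin d.N))}
    {T0 B e : ℝ} {j : ℕ} (hB : 0 ≤ B) (he : 0 ≤ e) (hv : ∀ᶠ i in l,
      ∀ s ∈ Icc T0 (d.ln (y i) - T0), Cl d.D.Z (pb (f i) (y i).x) (cy (d.β (u i))) (v i)
        (fun _ => ζ i) (win d.Y s 1) j (B * exp (-e * min (s - T0) (d.ln (y i) - T0 - s))))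
    (b : Bool) : ∀ᶠ p : ℝ × α in LT l, Cl d.D.Z (sh (sf b (d.ln (y p.2))) (pb (f p.2) (y p.2).x))
      (cy (d.β (u p.2))) (fun x => v p.2 (Tmp64.sq (· + sf b (d.ln (y p.2))) x)) (fun _ => ζ p.2)
      (bn d.Y (-pm b) p.1) j (B * exp (e * T0) * exp (-e * p.1)) :=
  eventually_curry_iff.2 <| (eventually_ge_atTop T0).mono fun T hT =>
    (hv.and ((ln_top H hy hs).eventually_ge_atTop (2 * (T + 4)))).mono fun _ k =>
      nk_bn b k.2 hT hB he k.1

omit hf hy hs in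
/-- **LEAF PAT** -/
theorem pat [FiniteDimensional ℝ U] (hN : d.NkD q₀ δ) (hS : d.Stab) (hU : d.Ucp) (hW : d.Wnd) :
    d.Pat q₀ δ := by
  obtain ⟨e, he, hN⟩ := hN
  obtain ⟨ρ, hρ, hS⟩ := hS
  obtain ⟨δ', hδ', hA, hΦ⟩ := H.dec
  have δ0 := H.δ0
  have e1 : 0 < e := by linarith
  have e0 : 0 < min e δ' := lt_min e1 (by linarith)
  refine ⟨min e δ', lt_min he (by linarith), fun α 𝒰 q y hq hy hD j => ?_⟩
  obtain ⟨B0, p0, hB0⟩ := Metric.nhds_basis_closedBall.eventually_iff.1 (ev_adm H)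
  have pB := lt_min p0 hρ
  obtain ⟨T0, hT⟩ := hN α 𝒰 q y hq hy hD j _ pB
  set B := min B0 ρ
  obtain ⟨f, uu, ζ, v, hf, hu, hv⟩ : ∃ (f : α → d.Y × ℝ → (W.Z M.c0).M) (u : α → U)
      (ζ : α → Circle) (v : ∀ i, d.Y × ℝ → CL (y i).x.m.V (Eu (Fin d.N))),
      (∀ᶠ i in (𝒰 : Filter α), ∃ ha : Act J.m M.c0 d.x none (J.Θ (y i).s),
        ⇑(J.K _ d.x none _ ha).ψ = f i) ∧ (∀ᶠ i in (𝒰 : Filter α), ‖u i‖ ≤ B) ∧
      ∀ᶠ i in (𝒰 : Filter α), ∀ s ∈ Icc T0 (d.ln (y i) - T0),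
        Cl d.D.Z (pb (f i) (y i).x) (cy (d.β (u i))) (v i) (fun _ => ζ i) (win d.Y s 1) j
          (B * exp (-e * min (s - T0) (d.ln (y i) - T0 - s))) := by
    have : Nonempty (d.Y × ℝ → (W.Z M.c0).M) := ⟨fun x => Job.up _ ((d.KS false).ψ x)⟩
    obtain ⟨z, hz⟩ := ev_choice (β := fun i => (d.Y × ℝ → (W.Z M.c0).M) × U × Circle ×
      (d.Y × ℝ → CL (y i).x.m.V (Eu (Fin d.N)))) (p := fun i z =>
        (∃ ha : Act J.m M.c0 d.x none (J.Θ (y i).s), ⇑(J.K _ d.x none _ ha).ψ = z.1) ∧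
        ‖z.2.1‖ ≤ B ∧ ∀ s ∈ Icc T0 (d.ln (y i) - T0), Cl d.D.Z (pb z.1 (y i).x) (cy (d.β z.2.1))
          z.2.2.2 (fun _ => z.2.2.1) (win d.Y s 1) j
          (B * exp (-e * min (s - T0) (d.ln (y i) - T0 - s))))
      (hT.mono fun i ⟨ha, u, ζ, v, h1, h2⟩ => ⟨(_, u, ζ, v), ⟨ha, rfl⟩, h1, h2⟩)
    exact ⟨_, _, _, fun i => (z i).2.2.2, hz.mono fun _ k => k.1, hz.mono fun _ k => k.2.1,
      hz.mono fun _ k => k.2.2⟩
  clear hT hN
  obtain ⟨u, θ, hg, hc⟩ := hD.lim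
  have := FiniteDimensional.proper_real U
  obtain ⟨u0, m0, hu0⟩ := (isCompact_closedBall (0 : U) B).ultrafilter_le_nhds (𝒰.map uu)
    (le_principal_iff.2 (hu.mono fun _ k => mem_closedBall_zero_iff.2 k))
  replace hu0 : Tendsto uu 𝒰 (𝓝 u0) := hu0
  obtain ⟨ξ, hξ⟩ := Glw30.exists_phase (𝒰 := 𝒰) fun i => ζ i / θ i
  obtain ⟨K, hK, cβ⟩ := cl_β H j
  have hb := lt_bot (l := (𝒰 : Filter α)) e0
  have ha := adm_c H hf hy hD.s
  have cu := fun b => hu_co H hf hy hD.s hW hg hA hΦ e0.le (min_le_right _ _) b j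
  have cv := nb_co H hf hy hD.s pB.le e1.le hv
  have sm : ∀ ε > 0, ∀ᶠ i in (𝒰 : Filter α), ‖u0 - uu i‖ ≤ ε := fun ε hε =>
    (hu0.eventually (Metric.closedBall_mem_nhds u0 hε)).mono fun i k => by
      rwa [← dist_eq_norm, dist_comm]
  choose γ h1 h2 using fun b => lim_iso (c := fun i => sh (sf b (d.ln (y i))) (pb (f i) (y i).x))
    (u := fun i x => u i ((d.KS b).ψ x))
    (v := fun i x => v i (Tmp64.sq (· + sf b (d.ln (y i))) x)) (adm0 H)
    (hB0 (Metric.closedBall_subset_closedBall (min_le_left _ _) m0)) (pm_σ b) (ha b)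
    (((cu b).of_le j.zero_le).cz hb) (fun ε hε => by
      filter_upwards [cv b, ev_exp (lt_bot e1) (B * exp (e * T0)) (half_pos hε),
        ev_lt' (sm _ (div_pos (half_pos hε) (show 0 < K + 1 by linarith)))] with p k1 k2 k3
      refine (cβ _ _ u0 _ _ _ _ k1).mono k1.op Subset.rfl j.zero_le ?_
      rw [le_div_iff₀ (by linarith)] at k3
      nlinarith [norm_nonneg (u0 - uu p.2)]) hξ
  obtain ⟨rfl, g, γ', ξ', ⟨a1, a2⟩, a3, a4⟩ := hS u0
    ((mem_closedBall_zero_iff.1 m0).trans (min_le_right _ _)) γ ξ h1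
  have ad0 := H.sol.sol.toAdm
  have hg' := ulim_phase (θ := fun i => ξ' * ζ i) (hU α 𝒰 y _ _ u θ g _ ad0 ad0
    (hy.mono fun i k => ⟨k.ok H.ok H.mem, k.cell⟩) hD.s hg a1) ad0.ok.Jsq (by
      simpa only [mul_assoc, mul_div_mul_left_eq_div, div_div, mul_comm ξ, div_self'] using
        hξ.div_const ξ)
  obtain ⟨Λ, hΛ⟩ := End14.stb_cl (r := r) (D := d.D) (m := (d.β 0).m) (g := γ') ξ'
    (fun x => a3.self_of_nhds.iso.su x trivial) j
  have hv' : ∀ᶠ i in (𝒰 : Filter α), ∀ s ∈ Icc T0 (d.ln (y i) - T0),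
      Cl d.D.Z (pb (f i) (y i).x) (cy (d.β (uu i))) (fun x => γ' x.1 ∘L v i x) (fun _ => ξ' * ζ i)
        (win d.Y s 1) j (|Λ| * B * exp (-e * min (s - T0) (d.ln (y i) - T0 - s))) := by
    filter_upwards [hv, hu0.eventually (a3.and (ev_adm H))] with i k1 k2 s hs
    refine (hΛ _ _ _ k2.2 k2.1 _ _ _ _ _ (k1 s hs)).mono (win_op _ _) Subset.rfl le_rfl ?_
    rw [abs_of_nonneg (by positivity), mul_assoc]
    exact mul_le_mul_of_nonneg_right (le_abs_self _) (by positivity)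
  have cu' := fun b => hu_co H hf hy hD.s hW hg' hA hΦ e0.le (min_le_right _ _) b j
  have cv' := nb_co H hf hy hD.s (by positivity) e1.le hv'
  have sm' : ∀ᶠ p in LT (𝒰 : Filter α), ‖0 - uu p.2‖ ≤ exp (-min e δ' * p.1) :=
    eventually_curry_iff.2 (.of_forall fun T => sm _ (exp_pos (-min e δ' * T)))
  have cw : ∀ b, CO d.D.Z (LT 𝒰) (fun p => bn d.Y (-pm b) p.1) j (fun p => -min e δ' * p.1)
      (fun p => sh (sf b (d.ln (y p.2))) (pb (f p.2) (y p.2).x)) (cy (d.β 0))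
      (fun p x => γ' x.1 ∘L v p.2 (Tmp64.sq (· + sf b (d.ln (y p.2))) x))
      fun p _ => ξ' * ζ p.2 := fun b => ⟨|Λ| * B * exp (e * T0) + K, by positivity, by
    filter_upwards [cv' b, sm', ev_lt (eventually_ge_atTop 0)] with p k1 k2 k3
    refine (cβ _ _ 0 _ _ _ _ k1).mono k1.op Subset.rfl le_rfl ?_
    rw [add_mul]
    exact add_le_add (mul_le_mul_of_nonneg_left (exp_le_exp.2 (by nlinarith [min_le_left e δ']))
      (by positivity)) (mul_le_mul_of_nonneg_left k2 hK)⟩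
  choose C hC ep using fun b => end_pat (c := fun i => sh (sf b (d.ln (y i))) (pb (f i) (y i).x))
    (u := fun i x => g ((d.KS b).ψ x) ∘L u i ((d.KS b).ψ x))
    (v := fun i x => γ' x.1 ∘L v i (Tmp64.sq (· + sf b (d.ln (y i))) x))
    (θ := fun i => ξ' * ζ i) (Dg64.hD H) (adm0 H) (pm_σ b) e0 (ha b) (cu' b) (cw b)
    fun ε hε => End14.hyp_top.frequently (Eventually.frequently (by
      filter_upwards [h2 b _ (half_pos hε), End14.hyp_top.eventually (a4 b _ (half_pos hε)),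
        End14.hyp_top.eventually (eventually_curry_iff.1 ((cu b).iso.and (cv b)))] with m k1 k2 k3
      filter_upwards [k1, k3] with i k4 k5 z
      have mm : (z, -pm b * m) ∈ bn d.Y (-pm b) m := win_bn (pm_σ b) (mem_win.2 (by simp))
      exact (slice_est (k5.1.iso _ mm) (k5.2.iso.iso _ mm) ((h1 b).iso.iso (z, -pm b * m) trivial)
        (a3.self_of_nhds.iso.iso (z, -pm b * m) trivial)).trans
        ((add_le_add (k2 z) (k4 z)).trans_eq (add_halves ε))))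
  obtain ⟨T1, hT1⟩ := eventually_atTop.1 (eventually_curry_iff.1 ((eventually_all.2 fun b =>
    (ep b).and ((cu' b).iso.and (cw b).iso)).and sm'))
  have c0 := hC false
  have c1 := hC true
  refine ⟨(C false + C true + K) * exp (min e δ' * 3) + |Λ| * B * exp (e * T0), max T1 (max T0 0),
    _, _, hg', fun k => ?_, fun T hT ε hε => ?_⟩
  · obtain ⟨η, k1⟩ := hc k (by rw [H.sol.H_eq H.tight.1, H.unc]; trivial)
    obtain ⟨η0, k2⟩ := a2 k
    refine ⟨fun i => η0 * η i, k2 ▸ (Glw30.td_LU d.Jc (tendsto_const_nhds (x := η0))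
      (tendsto_const_nhds (x := g (J.cut _ k).x0)) k1).congr fun i => ?_⟩
    exact Glw30.LU_cs ad0.ok.Jsq (a1.m.J _ trivial) _ _ _ _
  simp only [ge_iff_le, max_le_iff] at hT
  filter_upwards [hf, hT1 T hT.1, hv', sm ε hε,
    (ln_top H hy hD.s).eventually_ge_atTop (2 * (T + 4))] with i ⟨a5, a6⟩ ⟨k1, k2⟩ k3 k4 k5
  rw [zero_sub, norm_neg] at k2 k4
  obtain ⟨v', k6, k7⟩ := glue3 (β := d.β (uu i)) (c := pb (f i) (y i).x)
    (η := (C false + C true + K) * exp (-min e δ' * T)) (v := fun x => γ' x.1 ∘L v i x)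
    (φ := fun s => ((C false + C true + K) * exp (min e δ' * 3) + |Λ| * B * exp (e * T0)) *
      exp (-min e δ' * min s (d.ln (y i) - s))) k5
    (fun b => (cβ _ _ (uu i) _ _ _ _ (k1 b).1).mono (bn_op _ _) Subset.rfl le_rfl (by
      rw [sub_zero, add_mul]
      refine add_le_add (mul_le_mul_of_nonneg_right ?_ (exp_pos _).le)
        (mul_le_mul_of_nonneg_left k2 hK)
      cases b <;> linarith))
    (fun b x hx k => gl_right (adm0 H).adm.ok ((k1 b).2.1.iso x hx) ((k1 b).2.2.iso x hx)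
      (chi_one (by linarith)))
    (fun s hs => (k3 s ⟨by linarith [hs.1], by linarith [hs.2]⟩).mono (win_op _ _) Subset.rfl le_rfl
      (by
        have m0 : 0 ≤ min s (d.ln (y i) - s) := le_min (by linarith [hs.1]) (by linarith [hs.2])
        rw [sub_right_comm, min_sub_sub_right, add_mul, mul_assoc _ (exp (e * T0)), ← exp_add]
        exact le_add_of_nonneg_of_le (by positivity) (mul_le_mul_of_nonneg_left
          (exp_le_exp.2 (by nlinarith [min_le_left e δ'])) (by positivity))))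
    fun s hs => by
      rw [add_mul _ (|Λ| * B * _), mul_assoc _ (exp (min e δ' * 3)), ← exp_add]
      exact le_add_of_le_of_nonneg (mul_le_mul_of_nonneg_left (exp_le_exp.2 (by nlinarith))
        (by positivity)) (by positivity)
  refine ⟨a5, uu i, v', k4, fun b z s hs => (k6 b z s hs).trans ?_,
    fun s hs => cl_eq a6.symm (k7 s hs)⟩
  have m : (z, -pm b * s) ∈ bn d.Y (-pm b) T := win_bn (pm_σ b)
    ((mem_win' (pm_σ b)).2 (by rwa [Cay24.σ_σ (pm_σ b)]))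
  exact gl_left (adm0 H).adm.ok ((k1 b).2.1.iso _ m) (chi_zero (by
    rw [Cay24.σ_σ (pm_σ b)]; linarith [(abs_lt.1 hs).2]))

end Crest.Agent.X212.Dg64
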