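import Crest.Agent.X212.Cay24.Dt
import Crest.Agent.X212.Bki64.G1

/-!
# Row 212, GL-DG (helper64): exponentially weighted closeness, patching of two gauges on an end
-/

set_option autoImplicit false
set_option linter.unusedSectionVars false
noncomputable section
open scoped Manifold ContDiff Topology InnerProductSpace
open MeasureTheory Set Function Filter Real

namespace Crest.Agent.X212.Dg64
open An Sob92 Cyf70 Neck67 Cmp73 Pj41 Eqv71 Tmp64 Nd18 Std94 Bki64
open Cay24 (OB)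

section gen
variable {E : Type} [NormedAddCommGroup E] [NormedSpace ℝ E] [FiniteDimensional ℝ E]
  [MeasurableSpace E] [BorelSpace E]
  {HM : Type} [TopologicalSpace HM] {I : ModelWithCorners ℝ E HM}
  {M : Type} [TopologicalSpace M] [ChartedSpace HM M] [IsManifold I ∞ M]
  [MeasurableSpace M] {ι : Type} [Fintype ι] {lam : Type} [Fintype lam] {r r' r'' : ℕ}
  {N : Type} [NormedAddCommGroup N] [NormedSpace ℝ N] {α : Type}
  {B : Base M ι lam} {G : Geo I M ι lam} {l : Filter α} {S : α → Set M} {k j : ℕ} {e : α → ℝ}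

section ob
variable {F : Pre I M ι} {f : α → M → N}

theorem ob_succ (h0 : OB F l S 0 e f) (h : ∀ a, OB F l S k e fun n => F.D a (f n)) :
    OB F l S (k + 1) e f := by
  obtain ⟨C0, p0, h0⟩ := h0
  choose C p h using h
  have hs : 0 ≤ ∑ a, C a := Finset.sum_nonneg fun a _ => p a
  refine ⟨C0 + ∑ a, C a, by positivity, (h0.and (eventually_all.2 h)).mono fun n hn =>
    ⟨hn.1.1, hn.1.2.mono ?_, fun a => (hn.2 a).2.mono ?_⟩⟩ <;>
    refine mul_le_mul_of_nonneg_right ?_ (exp_pos _).le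
  · linarith
  · linarith [Finset.single_le_sum (fun a _ => p a) (Finset.mem_univ a)]

theorem ob_boot (h0 : OB F l S 0 e f)
    (h : ∀ j ≤ k, OB F l S j e f → ∀ a, OB F l S j e fun n => F.D a (f n)) :
    OB F l S (k + 1) e f := by
  have : ∀ j ≤ k + 1, OB F l S j e f := fun j => by
    induction j with
    | zero => exact fun _ => h0
    | succ j ih => exact fun hj => ob_succ h0 (h j (by omega) (ih (by omega)))
  exact this _ le_rfl

theorem ev_exp (he : Tendsto e l atBot) (C : ℝ) {ε : ℝ} (hε : 0 < ε) :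
    ∀ᶠ n in l, C * exp (e n) ≤ ε := by
  have := (tendsto_exp_atBot.comp he).const_mul C
  rw [mul_zero] at this
  exact this.eventually (ge_mem_nhds hε)

theorem ob_zz (h : OB F l S k e f) (he : Tendsto e l atBot) : ZZ F l S k f := fun _ hε =>
  let ⟨C, _, h⟩ := h
  (h.and (ev_exp he C hε)).mono fun _ h => ⟨h.1.1, h.1.2.mono h.2⟩

theorem ob_smul {φ : α → M → ℝ} (h : OB F l S k e φ) (h' : BB F l S k f) :
    OB F l S k e fun n x => φ n x • f n x := h.bil (ContinuousLinearMap.lsmul ℝ ℝ) h'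

theorem ob_smul' {φ : α → M → ℝ} (h : OB F l S k e f) (h' : BB F l S k φ) :
    OB F l S k e fun n x => φ n x • f n x := h.bil (ContinuousLinearMap.lsmul ℝ ℝ).flip h'

end ob

variable {ρ : α → ℕ}

/-- `O(exp e)`-closeness in `C^k` -/
def CO (F : Fr I M ι) (l : Filter α) (S : α → Set M) (k : ℕ) (e : α → ℝ)
    (c : ∀ n, Cfg M ι lam (ρ n)) (c' : Cfg M ι lam r') (u : ∀ n, M → CL (c n).m.V c'.m.V)
    (ζ : α → M → Circle) : Prop :=
  ∃ C ≥ 0, ∀ᶠ n in l, Cl F (c n) c' (u n) (ζ n) (S n) k (C * exp (e n))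

variable {F : Fr I M ι} {c : ∀ n, Cfg M ι lam (ρ n)} {c' : Cfg M ι lam r'} {c'' : Cfg M ι lam r''}
  {u : ∀ n, M → CL (c n).m.V c'.m.V} {u' : ∀ n, M → CL (c n).m.V c''.m.V}
  {h : α → M → CL c'.m.V c''.m.V} {ζ ζ' ξ : α → M → Circle}

theorem CO.iso (H : CO F l S k e c c' u ζ) : ∀ᶠ n in l, Iso0 I (c n).m c'.m (S n) (u n) :=
  H.choose_spec.2.mono fun _ h => h.iso

theorem CO.op (H : CO F l S k e c c' u ζ) : ∀ᶠ n in l, IsOpen (S n) :=
  H.choose_spec.2.mono fun _ h => h.op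

theorem CO.A (H : CO F l S k e c c' u ζ) (a : ι) :
    OB F.toPre l S k e fun n => dA F (c n) c' (u n) a :=
  let ⟨C, h0, h⟩ := H; ⟨C, h0, h.mono fun _ h => ⟨h.op, h.A a⟩⟩

theorem CO.P (H : CO F l S k e c c' u ζ) :
    OB F.toPre l S k e fun n x => dP (c n) c' (u n) (ζ n x) x :=
  let ⟨C, h0, h⟩ := H; ⟨C, h0, h.mono fun _ h => ⟨h.op, h.P⟩⟩

theorem CO.mk (h1 : ∀ᶠ n in l, Iso0 I (c n).m c'.m (S n) (u n))
    (h2 : ∀ a, OB F.toPre l S k e fun n => dA F (c n) c' (u n) a)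
    (h3 : OB F.toPre l S k e fun n x => dP (c n) c' (u n) (ζ n x) x) : CO F l S k e c c' u ζ := by
  obtain ⟨C0, p0, h0⟩ := h3
  choose C p h using h2
  have hs : 0 ≤ ∑ a, C a := Finset.sum_nonneg fun a _ => p a
  refine ⟨C0 + ∑ a, C a, by positivity, (h1.and (h0.and (eventually_all.2 h))).mono fun n hn =>
    ⟨hn.2.1.1, hn.1, fun a => (hn.2.2 a).2.mono ?_, hn.2.1.2.mono ?_⟩⟩ <;>
    refine mul_le_mul_of_nonneg_right ?_ (exp_pos _).le
  · linarith [Finset.single_le_sum (fun a _ => p a) (Finset.mem_univ a)]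
  · linarith

theorem CO.cz (H : CO F l S k e c c' u ζ) (he : Tendsto e l atBot) : CZ F l S k c c' u ζ :=
  CZ.mk H.iso (fun a => ob_zz (H.A a) he) (ob_zz H.P he)

theorem CO.of_le (H : CO F l S k e c c' u ζ) (hj : j ≤ k) : CO F l S j e c c' u ζ :=
  let ⟨C, h0, h⟩ := H; ⟨C, h0, h.mono fun _ h => h.mono h.op Subset.rfl hj le_rfl⟩

theorem CO.congr {v : ∀ n, M → CL (c n).m.V c'.m.V} (H : CO F l S k e c c' u ζ)
    (q : ∀ᶠ n in l, ∀ x ∈ S n, v n x = u n x ∧ ξ n x = ζ n x) : CO F l S k e c c' v ξ :=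
  let ⟨C, h0, h⟩ := H
  ⟨C, h0, (h.and q).mono fun _ h => h.1.congr (fun x hx => (h.2 x hx).1) fun x hx => (h.2 x hx).2⟩

theorem CO.comp (H : CO G.F l S k e c c' u ζ) (H' : CO G.F l S k e (fun _ => c') c'' h ξ)
    (he : Tendsto e l atBot) (h1 : Fx B G l S k c') (h2 : Fx B G l S k c'')
    (h3 : BB G.F.toPre l S k fun n x => (ξ n x : ℂ)) :
    CO G.F l S k e c c'' (fun n x => h n x ∘L u n x) fun n x => ξ n x * ζ n x := by
  have hb := ((H'.cz he).bb h1 h2).of_le k.le_succ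
  refine CO.mk ((H.iso.and H'.iso).mono fun _ h => h.1.trans h.2) (fun a => ?_) ?_
  · exact ((H'.A a).add (((H.A a).comp hb.ad).comp' hb)).congr <|
      (H.iso.and H'.iso).mono fun _ h _ hx => dA_comp h.1 h.2 hx a
  · exact (H'.P.add ((H.P.app' hb).app' (h3.clm (csB c''.m.J)))).congr <|
      (H'.iso.and h2.adm).mono fun _ h _ hx => dP_comp h.2.ok.Jsq h.1 hx _ _

/-- the covariant derivative of the transition function -/
theorem CO.cov (H : CO G.F l S k e c c' u ζ) (H' : CO G.F l S k e c c'' u' ζ')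
    (he : Tendsto e l atBot) (h0 : ∀ᶠ n in l, AdmOn (c n) B G (S n)) (h1 : Fx B G l S k c')
    (h2 : Fx B G l S k c'') (a : ι) :
    OB G.F.toPre l S k e fun n => cov G.F c' c'' (fun x => u' n x ∘L ad (u n x)) a := by
  have ht : ∀ᶠ n in l, Iso0 I c'.m c''.m (S n) fun x => u' n x ∘L ad (u n x) := by
    filter_upwards [H.iso, H'.iso, h0, h1.adm] with n a b d e using (a.symm d.ok e.ok).trans b
  have hc : ∀ j ≤ k, BB G.F.toPre l S j (fun n x => u' n x ∘L ad (u n x)) → ∀ a,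
      OB G.F.toPre l S j e fun n => Bki64.cov G.F c' c'' (fun x => u' n x ∘L ad (u n x)) a :=
    fun j hj hb a => ((((H'.A a).of_le hj).comp hb).add
      ((((H.A a).of_le hj).clm adL).comp' hb)).congr <| by
      filter_upwards [H.op, H.iso, H'.iso, h0, h1.adm] with n o a' b d e x hx
        using cov_quot a' b o d e hx a
  exact hc k le_rfl ((bb_of_cov H.op ht h1 h2 fun j hj hb a =>
    (ob_zz (hc j hj hb a) he).bb).of_le k.le_succ) a

theorem D_sub_p {t : M → CL c'.m.V c'.m.V} {O : Set M} {x : M} (d : AdmOn c' B G O) (hx : x ∈ O)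
    (ht : FSm I t x) (a : ι) : G.F.D a (fun x => t x - c'.m.p x) x = cov G.F c' c' t a x -
      c'.W a x ∘L (t x - c'.m.p x) + (t x - c'.m.p x) ∘L c'.W a x := by
  have := (Eq0.refl d).par x hx a
  have e : G.F.D a (fun x => t x - c'.m.p x) x = G.F.D a t x - G.F.D a c'.m.p x :=
    dv_sub ht.md (d.ok.sp x hx).md
  rw [e, Bki64.cov, ← sub_zero (_ - t x ∘L _), ← this]
  simp only [ContinuousLinearMap.comp_sub, ContinuousLinearMap.sub_comp]
  abel

/-- bootstrapping -/
theorem ob_near {t : α → M → CL c'.m.V c'.m.V} (h1 : Fx B G l S k c')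
    (ht : ∀ᶠ n in l, Iso0 I c'.m c'.m (S n) (t n))
    (h0 : OB G.F.toPre l S 0 e fun n x => t n x - c'.m.p x)
    (hc : ∀ a, OB G.F.toPre l S k e fun n => cov G.F c' c' (t n) a) :
    OB G.F.toPre l S (k + 1) e fun n x => t n x - c'.m.p x :=
  ob_boot h0 fun _ hj hb a => ((((hc a).of_le hj).sub (hb.comp' ((h1.W a).of_le hj))).add
    (hb.comp ((h1.W a).of_le hj))).congr <|
      (ht.and h1.adm).mono fun _ h _ hx => D_sub_p h.2 hx (h.1.su _ hx) a

/-- automorphisms close to the identity -/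
theorem CO.of_near {t : α → M → CL c'.m.V c'.m.V} (H : ∀ᶠ n in l, Iso0 I c'.m c'.m (S n) (t n))
    (he : Tendsto e l atBot) (h1 : Fx B G l S k c')
    (h2 : OB G.F.toPre l S (k + 1) e fun n x => t n x - c'.m.p x) :
    CO G.F l S k e (fun _ => c') c' t fun _ _ => 1 := by
  have h4 := h2.of_le k.le_succ
  have hb : BB G.F.toPre l S k t := ((ob_zz h4 he).bb.add (h1.p.of_le k.le_succ)).congr
    (Eventually.of_forall fun _ _ _ => (sub_add_cancel _ _).symm)
  refine CO.mk H (fun a => ?_) ?_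
  · refine (((((h2.D a).add (h4.comp' (h1.W a))).sub (h4.comp (h1.W a)))).comp hb.ad).congr ?_
    filter_upwards [H, h1.adm] with n b d x hx
    rw [dA, ad_trn, D_sub_p d hx (b.su x hx)]
    congr 1
    abel
  · refine (h4.app h1.Φ).congr ?_
    filter_upwards [h1.adm] with n d x hx
    rw [dP, Circle.coe_one, cs_one, sub_apply, d.pΦ hx]

theorem itp_co (hB : B.OK I) {c : Cfg M ι lam r} {t : α → M → En (Fin c.m.N)} {χ : α → M → ℝ}
    (he : Tendsto e l atBot) (f1 : Fx B G l S k c) (ht : ∀ᶠ n in l, Iso0 I c.m c.m (S n) (t n))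
    (h1 : OB G.F.toPre l S (k + 1) e fun n x => t n x - c.m.p x)
    (hχ : BB G.F.toPre l S (k + 1) χ) :
    CO G.F l S k e (fun _ => c) c (fun n x => nz (itp c.m (χ n) (t n) x)) fun _ _ => 1 := by
  have h2 := ob_smul' h1 hχ
  have h3 : BB G.F.toPre l S (k + 1) fun n => itp c.m (χ n) (t n) := f1.p.add (ob_zz h2 he).bb
  have h4 : OB G.F.toPre l S (k + 1) e
      fun n x => hs (itp c.m (χ n) (t n) x) (itp c.m (χ n) (t n) x) / 16 - 1 := by
    refine (ob_smul' ((((h2.clm hsL).bil (innerSL ℝ) (h3.clm hsL))).add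
      ((h2.clm hsL).bil (innerSL ℝ).flip (f1.p.clm hsL))) (BB.const h1.op (1 / 16 : ℝ))).congr
        (f1.adm.mono fun n hn x hx => ?_)
    have := hs_iso hn.ok hx (hn.ok.prj hx).refl
    rw [← inner_hs] at this
    have e : ∀ a b : HS (Fin c.m.N), innerSL ℝ a b = ⟪a, b⟫_ℝ := fun _ _ => rfl
    beta_reduce
    rw [ContinuousLinearMap.flip_apply, e, e]
    simp only [← inner_hs, itp, map_add, inner_add_left, inner_add_right, this, smul_eq_mul]
    ring
  have z4 := ob_zz h4 he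
  have h5 := ((ZZ.post (Φ := fun r => -(√(1 + r) * (1 + √(1 + r)))⁻¹) (k + 1) ((eventually_gt_nhds
    (show (-1 : ℝ) < 0 by norm_num)).mono fun r hr => by
      have p : 0 < √(1 + r) := Real.sqrt_pos.2 (by linarith)
      have s : ContDiffAt ℝ ∞ (fun r => √(1 + r)) r :=
        (contDiffAt_const.add contDiffAt_id).sqrt (by simp only [id]; linarith)
      exact ((s.mul (contDiffAt_const.add s)).inv (by positivity)).neg) z4).bb.add
    (BB.const h1.op (-(√(1 + 0) * (1 + √(1 + 0)))⁻¹ : ℝ)))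
  have h6 : OB G.F.toPre l S (k + 1) e fun n x => nz (itp c.m (χ n) (t n) x) - c.m.p x := by
    refine ((ob_smul (ob_smul h4 h5) h3).add h2).congr ((z4.le one_half_pos).mono fun n d x hx => ?_)
    have p : 0 < 1 + (hs (itp c.m (χ n) (t n) x) (itp c.m (χ n) (t n) x) / 16 - 1) := by
      linarith [(abs_le.1 (d x hx)).1]
    simp only [nz, sub_add_cancel, smul_eq_mul]
    generalize hs (itp c.m (χ n) (t n) x) (itp c.m (χ n) (t n) x) / 16 - 1 = z at p
    have q := Real.sqrt_pos.2 p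
    have : z * -(√(1 + z) * (1 + √(1 + z)))⁻¹ = (√(1 + z))⁻¹ - 1 := by
      field_simp
      linarith [Real.sq_sqrt p.le]
    rw [this, sub_smul, one_smul, itp]
    abel
  refine CO.of_near ?_ he f1 h6
  filter_upwards [ht, z4.le one_half_pos, ((ob_zz h6 he).bb.add f1.p).sm, f1.adm] with n b d e a
  refine itp_iso hB a.ok b (fun x hx => ?_) fun x hx => by linarith [(abs_le.1 (d x hx)).1]
  have := e x hx
  simp only [sub_add_cancel] at this
  exact this

end gen

theorem int_dec {N : Type} [NormedAddCommGroup N] [NormedSpace ℝ N] {f : ℝ → N} {a b C e : ℝ}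
    (he : 0 < e) (hC : 0 ≤ C) (hab : a ≤ b)
    (hf : ∀ r ∈ Icc a b, ∃ f', HasDerivAt f f' r ∧ ‖f'‖ ≤ C * exp (-e * r)) :
    ‖f b - f a‖ ≤ C / e * exp (-e * a) := by
  choose! f' h1 h2 using hf
  have := image_norm_le_of_norm_deriv_right_le_deriv_boundary (f := fun r => f r - f a) (f' := f')
    (B := fun r => C / e * (exp (-e * a) - exp (-e * r))) (B' := fun r => C * exp (-e * r))
    (fun r hr => ((h1 r hr).sub_const _).continuousAt.continuousWithinAt)
    (fun r hr => ((h1 r (Ico_subset_Icc_self hr)).sub_const _).hasDerivWithinAt) (by simp)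
    (fun r => by
      refine (((((hasDerivAt_id' r).const_mul (-e)).exp).const_sub (exp (-e * a))).const_mul
        (C / e)).congr_deriv ?_
      field_simp) (fun r hr => h2 r (Ico_subset_Icc_self hr)) (right_mem_Icc.2 hab)
  exact this.trans (mul_le_mul_of_nonneg_left (sub_le_self _ (exp_pos _).le) (by positivity))

theorem chi_bd' {σ : ℝ} (hσ : σ = 1 ∨ σ = -1) (k : ℕ) : ∃ C > 0, ∀ j ≤ k, ∀ s t : ℝ,
    |σ * t - s| ≤ 3 → |iteratedDeriv j (fun t => chi (σ * t - s)) t| ≤ C := by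
  have h0 : ContDiff ℝ ∞ fun t => chi (σ * t) :=
    Real.smoothTransition.contDiff.comp (by fun_prop)
  choose C hC using fun j : ℕ => (isCompact_Icc (a := (-3 : ℝ)) (b := 3)).exists_bound_of_continuousOn
    (h0.continuous_iteratedDeriv j (by exact_mod_cast le_top)).continuousOn
  refine ⟨∑ j ∈ Finset.range (k + 1), |C j| + 1, by positivity, fun j hj s t h => ?_⟩
  have e : (fun t => chi (σ * t - s)) = fun t => chi (σ * (t - σ * s)) := funext fun t => by
    rw [mul_sub, Cay24.σ_σ hσ]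
  rw [e, iteratedDeriv_comp_sub_const (f := fun t => chi (σ * t))]
  have := Finset.single_le_sum (f := fun j => |C j|) (fun _ _ => abs_nonneg _)
    (Finset.mem_range.2 (Nat.lt_succ_of_le hj))
  have h' : |t - σ * s| ≤ 3 := by rwa [← Cay24.abs_σ hσ, mul_sub, Cay24.σ_σ hσ]
  linarith [show |iteratedDeriv j (fun t => chi (σ * t)) (t - σ * s)| ≤ C j from
    hC j _ (abs_le.1 h'), le_abs_self (C j)]

variable {E3 : Type} [NormedAddCommGroup E3] [NormedSpace ℝ E3] [FiniteDimensional ℝ E3]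
  [MeasurableSpace E3] [BorelSpace E3]
  {H3 : Type} [TopologicalSpace H3] {I3 : ModelWithCorners ℝ E3 H3} [I3.Boundaryless]
  {Y : Type} [TopologicalSpace Y] [ChartedSpace H3 Y] [IsManifold I3 ∞ Y] [T2Space Y]
  [MeasurableSpace Y] [BorelSpace Y] [SecondCountableTopology Y] [CompactSpace Y]
  {κ : Type} [Fintype κ] {lam : Type} [Fintype lam] {D : YD I3 Y κ lam} {β : YC Y κ lam}
  {α : Type} {l : Filter α} {k r : ℕ} {σ e : ℝ}

/-- first the depth, then the index -/
abbrev LT (l : Filter α) : Filter (ℝ × α) := atTop.curry l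

/-- the band at depth `T` on the end `σ` -/
def bn (Y : Type) (σ T : ℝ) : Set (Y × ℝ) := {x | σ * x.2 ∈ Ioo (T - 1) (T + 4)}

theorem bn_op (σ T : ℝ) : IsOpen (bn Y σ T) :=
  isOpen_Ioo.preimage (continuous_const.mul continuous_snd)

theorem lt_bot (he : 0 < e) : Tendsto (fun q : ℝ × α => -e * q.1) (LT l) atBot :=
  (tendsto_id.const_mul_atTop_of_neg (neg_lt_zero.2 he)).comp fun _ hs =>
    eventually_curry_iff.2 (Eventually.mono hs fun _ h => .of_forall fun _ => h)

theorem hd_slice {N : Type} [NormedAddCommGroup N] [NormedSpace ℝ N] {f : Y × ℝ → N} {y : Y}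
    {s : ℝ} (h : FSm (IC I3) f (y, s)) : HasDerivAt (fun s => f (y, s)) (D.Z.D none f (y, s)) s := by
  have h1 : ContMDiffAt 𝓘(ℝ, ℝ) 𝓘(ℝ, N) ∞ (fun s => f (y, s)) s :=
    h.comp s (contMDiffAt_const.prodMk contMDiffAt_id)
  exact (D_none_at D.F.toPre h.md).symm ▸
    (h1.contDiffAt.differentiableAt (by simp)).hasDerivAt

/-- integration along the end -/
theorem c0_near (hβ : D.Adm β) (hσ : σ = 1 ∨ σ = -1) (he : 0 < e)
    {t : α → Y × ℝ → CL (cy β).m.V (cy β).m.V}
    (hs : ∀ᶠ q in LT l, Iso0 (IC I3) (cy β).m (cy β).m (bn Y σ q.1) (t q.2))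
    (h1 : OB D.Z.toPre (LT l) (fun q => bn Y σ q.1) 0 (fun q => -e * q.1)
      fun q => cov D.Z (cy β) (cy β) (t q.2) none)
    (h0 : ∀ ε > 0, ∃ᶠ s in atTop, ∀ᶠ i in l, ∀ y, ‖t i (y, σ * s) - (cy β).m.p (y, σ * s)‖ ≤ ε) :
    OB D.Z.toPre (LT l) (fun q => bn Y σ q.1) 0 (fun q => -e * q.1)
      fun q x => t q.2 x - (cy β).m.p x := by
  obtain ⟨C, hC, h1⟩ := h1
  obtain ⟨s0, h2⟩ := eventually_atTop.1 (eventually_curry_iff.1 (hs.and h1))
  refine ⟨C * exp e / e * exp e + 1, by positivity, eventually_curry_iff.2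
    ((eventually_ge_atTop s0).mono fun T hT => ?_)⟩
  obtain ⟨s, h3, h4⟩ := ((h0 _ (exp_pos (-e * T))).and_eventually (eventually_ge_atTop (T + 4))).exists
  filter_upwards [h3, h2 T hT, (eventually_all_finset (Finset.range (⌊s - T⌋₊ + 1))).2
    fun m _ => h2 (T + m) (by linarith [m.cast_nonneg (α := ℝ)])] with i k1 k2 k3
  refine ⟨bn_op _ _, fun x hx => ⟨(k2.1.su x hx).sub (hβ.adm.ok.sp x), ?_⟩⟩
  have k4 := int_dec (f := fun r => t i (x.1, σ * r)) (a := σ * x.2) (b := s) (C := C * exp e) he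
    (by positivity) (by linarith [hx.2]) fun r hr => by
      have f0 := Nat.lt_floor_add_one (max (r - T) 0)
      have f1 := Nat.floor_le (le_max_right (r - T) 0)
      have f2 := le_max_left (r - T) 0
      have f3 : max (r - T) 0 < r - T + 1 := max_lt (by linarith) (by linarith [hr.1, hx.1])
      obtain ⟨k5, -, k6⟩ := k3 ⌊max (r - T) 0⌋₊ (Finset.mem_range.2 (Nat.lt_succ_of_le
        (Nat.floor_mono (max_le (by linarith [hr.2]) (by linarith)))))
      have m : (x.1, σ * r) ∈ bn Y σ (T + ⌊max (r - T) 0⌋₊) := by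
        simp only [bn, mem_ofPred_eq, Cay24.σ_σ hσ]
        constructor <;> linarith
      refine ⟨_, (hd_slice (D := D) (k5.su _ m)).scomp r ((hasDerivAt_id r).const_mul σ), ?_⟩
      have e2 : (cy β).W none (x.1, σ * r) = 0 := hβ.tmp _
      have k7 := k6.le m
      rw [cov, e2, ContinuousLinearMap.zero_comp, ContinuousLinearMap.comp_zero, add_zero,
        sub_zero] at k7
      rw [norm_smul, Real.norm_eq_abs, Cay24.abs_σ hσ, abs_one, one_mul, mul_assoc, ← exp_add]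
      exact k7.trans (mul_le_mul_of_nonneg_left (exp_le_exp.2 (by nlinarith)) hC)
  simp only [Cay24.σ_σ hσ] at k4
  have k5 : exp (-e * (σ * x.2)) ≤ exp e * exp (-e * T) := by
    rw [← exp_add]; exact exp_le_exp.2 (by nlinarith [hx.1])
  have k6 := norm_sub_le_norm_sub_add_norm_sub (t i x) (t i (x.1, σ * s)) ((cy β).m.p x)
  rw [norm_sub_rev (t i x) (t i _)] at k6
  refine k6.trans ((add_le_add (k4.trans (mul_le_mul_of_nonneg_left k5 (by positivity)))
    (k1 x.1)).trans_eq (by ring))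

/-- **patching on one end** -/
theorem end_pat (hD : D.OK) (hβ : D.Adm β) (hσ : σ = 1 ∨ σ = -1) (he : 0 < e)
    {c : α → Cfg (Y × ℝ) (Option κ) lam r} {u v : ∀ i, Y × ℝ → CL (c i).m.V (cy β).m.V}
    {θ : α → Circle} (ha : ∀ᶠ q in LT l, AdmOn (c q.2) D.B D.G (bn Y σ q.1))
    (hu : CO D.Z (LT l) (fun q => bn Y σ q.1) k (fun q => -e * q.1) (fun q => c q.2) (cy β)
      (fun q => u q.2) fun q _ => θ q.2)
    (hv : CO D.Z (LT l) (fun q => bn Y σ q.1) k (fun q => -e * q.1) (fun q => c q.2) (cy β)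
      (fun q => v q.2) fun q _ => θ q.2)
    (h0 : ∀ ε > 0, ∃ᶠ s in atTop, ∀ᶠ i in l, ∀ y,
      ‖v i (y, σ * s) ∘L ad (u i (y, σ * s)) - (cy β).m.p (y, σ * s)‖ ≤ ε) :
    CO D.Z (LT l) (fun q => bn Y σ q.1) k (fun q => -e * q.1) (fun q => c q.2) (cy β)
      (fun q => gl (cy β).m (fun x => chi (σ * x.2 - (q.1 + 1))) (u q.2) (v q.2))
      fun q _ => θ q.2 := by
  have f1 := fx_cy (k := k) hβ hu.op
  have hb := lt_bot (l := l) he
  have ht : ∀ᶠ q in LT l, Iso0 (IC I3) (cy β).m (cy β).m (bn Y σ q.1)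
      fun x => v q.2 x ∘L ad (u q.2 x) := by
    filter_upwards [hu.iso, hv.iso, ha, f1.adm] with n a b d e using (a.symm d.ok e.ok).trans b
  have hc := CO.cov (G := D.G) hu hv hb ha f1 f1
  have h1 := ob_near (G := D.G) f1 ht (c0_near (t := fun i x => v i x ∘L ad (u i x)) hβ hσ he ht
    ((hc none).of_le k.zero_le) h0) hc
  obtain ⟨C, hC, h2⟩ := chi_bd' hσ (k + 1)
  have hχ : BB D.Z.toPre (LT l) (fun q => bn Y σ q.1) (k + 1)
      fun q x => chi (σ * x.2 - (q.1 + 1)) :=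
    ⟨C, .of_forall fun q => ⟨bn_op _ _, lb_snd (φ := fun t => chi (σ * t - (q.1 + 1))) (bn_op _ _)
      hC.le (Real.smoothTransition.contDiff.comp (by fun_prop)) fun j hj x hx =>
        h2 j hj _ _ (abs_le.2 ⟨by linarith [hx.1], by linarith [hx.2]⟩)⟩⟩
  exact (CO.comp (G := D.G) hu (itp_co hD.B hb f1 ht h1 hχ) hb f1 f1 (BB.const hu.op _)).congr
    (.of_forall fun _ _ _ => ⟨rfl, (one_mul _).symm⟩)

end Crest.Agent.X212.Dg64
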